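import Mathlib

namespace Vale.Agent.Results.P047.ConicalJunta

open Finset BigOperators

/-- the sign of a bit: `true` is `1`, `false` is `-1` -/
noncomputable def sgn (b : Bool) : ℝ := if b then 1 else -1

/-- Fourier coefficient of `f` at the set `S`, uniform measure on the cube -/
noncomputable def fourier {n : ℕ} (f : (Fin n → Bool) → ℝ) (S : Finset (Fin n)) : ℝ :=
  (∑ x : Fin n → Bool, f x * ∏ i ∈ S, sgn (x i)) / 2 ^ n

/-- indicator of the subcube of all points that agree with the restriction `ρ` -/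
noncomputable def cube {n : ℕ} (ρ : Fin n → Option Bool) (x : Fin n → Bool) : ℝ :=
  if ∀ i, ρ i = none ∨ ρ i = some (x i) then 1 else 0

/-- `x` lies in the subcube of `ρ` -/
def InCube {n : ℕ} (ρ : Fin n → Option Bool) (x : Fin n → Bool) : Prop :=
  ∀ i, ρ i = none ∨ ρ i = some (x i)

/-- number of coordinates fixed by `ρ` (the codimension of the subcube) -/
def width {n : ℕ} (ρ : Fin n → Option Bool) : ℕ := (univ.filter fun i => ρ i ≠ none).card

/-! ### auxiliary notions -/

/-- flip coordinate `i` -/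
def flip {n : ℕ} (i : Fin n) (x : Fin n → Bool) : Fin n → Bool := Function.update x i (!x i)

lemma flip_flip {n : ℕ} (i : Fin n) (x : Fin n → Bool) : flip i (flip i x) = x := by
  funext j
  by_cases h : j = i
  · subst h; simp [flip]
  · simp [flip, h]

lemma flip_same {n : ℕ} (i : Fin n) (x : Fin n → Bool) : flip i x i = !x i := by simp [flip]

lemma flip_ne {n : ℕ} {i j : Fin n} (h : j ≠ i) (x : Fin n → Bool) : flip i x j = x j := by
  simp [flip, h]

lemma sum_flip {n : ℕ} (i : Fin n) (g : (Fin n → Bool) → ℝ) :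
    ∑ x, g (flip i x) = ∑ x, g x := by
  have hinv : Function.Involutive (flip i : (Fin n → Bool) → _) := flip_flip i
  exact Equiv.sum_comp (hinv.toPerm _) g

lemma sgn_not (b : Bool) : sgn (!b) = - sgn b := by cases b <;> simp [sgn]

lemma sgn_sq (b : Bool) : sgn b * sgn b = 1 := by cases b <;> simp [sgn]

lemma sum_eq_zero_of_flip {n : ℕ} (i : Fin n) (g : (Fin n → Bool) → ℝ)
    (h : ∀ x, g (flip i x) = - g x) : ∑ x, g x = 0 := by
  have h1 := sum_flip i g
  simp only [h, Finset.sum_neg_distrib] at h1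
  linarith

lemma cube_flip {n : ℕ} (ρ : Fin n → Option Bool) (i : Fin n) (hi : ρ i = none)
    (x : Fin n → Bool) : cube ρ (flip i x) = cube ρ x := by
  unfold cube
  congr 1
  apply propext
  constructor
  · intro h j
    by_cases hj : j = i
    · subst hj; exact Or.inl hi
    · have := h j; rwa [flip_ne hj] at this
  · intro h j
    by_cases hj : j = i
    · subst hj; exact Or.inl hi
    · rw [flip_ne hj]; exact h j

lemma cube_nonneg {n : ℕ} (ρ : Fin n → Option Bool) (x : Fin n → Bool) : 0 ≤ cube ρ x := by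
  unfold cube; split_ifs <;> norm_num

/-- the sign forced by `ρ` at `i` (zero when free) -/
noncomputable def sg {n : ℕ} (ρ : Fin n → Option Bool) (i : Fin n) : ℝ :=
  match ρ i with
  | some b => sgn b
  | none => 0

lemma cube_mul_sgn {n : ℕ} (ρ : Fin n → Option Bool) (i : Fin n) (b : Bool) (hi : ρ i = some b)
    (x : Fin n → Bool) : cube ρ x * sgn (x i) = cube ρ x * sgn b := by
  unfold cube
  split_ifs with h
  · have := h i
    rw [hi] at this
    rcases this with h1 | h1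
    · exact absurd h1 (by simp)
    · have : b = x i := by simpa using h1
      rw [this]
  · simp

/-- number of points of the subcube -/
noncomputable def mass {n : ℕ} (ρ : Fin n → Option Bool) : ℝ := ∑ x, cube ρ x

lemma mass_nonneg {n : ℕ} (ρ : Fin n → Option Bool) : 0 ≤ mass ρ :=
  Finset.sum_nonneg fun x _ => cube_nonneg ρ x

lemma sum_cube_sgn {n : ℕ} (ρ : Fin n → Option Bool) (i : Fin n) :
    ∑ x, cube ρ x * sgn (x i) = mass ρ * sg ρ i := by
  cases hi : ρ i with
  | none =>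
    have : sg ρ i = 0 := by simp [sg, hi]
    rw [this, mul_zero]
    apply sum_eq_zero_of_flip i
    intro x
    rw [cube_flip ρ i hi, flip_same, sgn_not]; ring
  | some b =>
    have : sg ρ i = sgn b := by simp [sg, hi]
    rw [this, mass, Finset.sum_mul]
    exact Finset.sum_congr rfl fun x _ => cube_mul_sgn ρ i b hi x

lemma sum_cube_sgn_sgn {n : ℕ} (ρ : Fin n → Option Bool) {i j : Fin n} (hij : i ≠ j) :
    ∑ x, cube ρ x * (sgn (x i) * sgn (x j)) = mass ρ * (sg ρ i * sg ρ j) := by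
  cases hi : ρ i with
  | none =>
    have : sg ρ i = 0 := by simp [sg, hi]
    rw [this, zero_mul, mul_zero]
    apply sum_eq_zero_of_flip i
    intro x
    rw [cube_flip ρ i hi, flip_same, sgn_not, flip_ne hij.symm]; ring
  | some b =>
    have h1 : sg ρ i = sgn b := by simp [sg, hi]
    have h2 : ∀ x, cube ρ x * (sgn (x i) * sgn (x j)) = sgn b * (cube ρ x * sgn (x j)) := by
      intro x
      calc cube ρ x * (sgn (x i) * sgn (x j)) = (cube ρ x * sgn (x i)) * sgn (x j) := by ring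
        _ = (cube ρ x * sgn b) * sgn (x j) := by rw [cube_mul_sgn ρ i b hi x]
        _ = _ := by ring
    simp only [h2]
    rw [← Finset.mul_sum, sum_cube_sgn, h1]; ring

/-- the linear form `x_1 + ... + x_n` -/
noncomputable def lin {n : ℕ} (x : Fin n → Bool) : ℝ := ∑ i, sgn (x i)

/-- value of the conditional mean of `lin` on the subcube -/
noncomputable def bias {n : ℕ} (ρ : Fin n → Option Bool) : ℝ := ∑ i, sg ρ i

lemma sg_sq {n : ℕ} (ρ : Fin n → Option Bool) (i : Fin n) :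
    sg ρ i * sg ρ i = if ρ i ≠ none then 1 else 0 := by
  cases hi : ρ i with
  | none => simp [sg, hi]
  | some b => simp [sg, hi, sgn_sq]

lemma sum_sg_sq {n : ℕ} (ρ : Fin n → Option Bool) : ∑ i, sg ρ i * sg ρ i = (width ρ : ℝ) := by
  simp only [sg_sq, width]
  rw [Finset.sum_boole]

lemma sum_cube_pair {n : ℕ} (ρ : Fin n → Option Bool) (i j : Fin n) :
    ∑ x, cube ρ x * (sgn (x i) * sgn (x j))
      = mass ρ * (sg ρ i * sg ρ j + if i = j then 1 - sg ρ i * sg ρ i else 0) := by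
  by_cases hij : i = j
  · subst hij
    simp only [sgn_sq, mul_one, if_true]
    rw [mass]; ring
  · rw [sum_cube_sgn_sgn ρ hij]; simp [hij]

lemma sum_cube_lin {n : ℕ} (ρ : Fin n → Option Bool) :
    ∑ x, cube ρ x * lin x = mass ρ * bias ρ := by
  simp only [lin, bias, Finset.mul_sum]
  rw [Finset.sum_comm]
  exact Finset.sum_congr rfl fun i _ => sum_cube_sgn ρ i

lemma sum_cube_lin_sq {n : ℕ} (ρ : Fin n → Option Bool) :
    ∑ x, cube ρ x * (lin x * lin x) = mass ρ * (bias ρ * bias ρ + n - width ρ) := by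
  have h1 : ∀ x : Fin n → Bool, cube ρ x * (lin x * lin x)
      = ∑ i, ∑ j, cube ρ x * (sgn (x i) * sgn (x j)) := by
    intro x
    rw [lin, Finset.sum_mul_sum, Finset.mul_sum]
    exact Finset.sum_congr rfl fun i _ => Finset.mul_sum _ _ _
  simp only [h1]
  rw [Finset.sum_comm]
  have h2 : ∀ i : Fin n, ∑ x : Fin n → Bool, ∑ j, cube ρ x * (sgn (x i) * sgn (x j))
      = ∑ j, mass ρ * (sg ρ i * sg ρ j + if i = j then 1 - sg ρ i * sg ρ i else 0) := by
    intro i
    rw [Finset.sum_comm]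
    exact Finset.sum_congr rfl fun j _ => sum_cube_pair ρ i j
  simp only [h2]
  simp only [← Finset.mul_sum, Finset.sum_add_distrib, Finset.sum_ite_eq, Finset.mem_univ, if_true,
    Finset.sum_sub_distrib, Finset.sum_const, Finset.card_univ, Fintype.card_fin, sum_sg_sq]
  rw [bias, Finset.sum_mul_sum]
  simp only [Finset.mul_sum]
  simp
  left
  ring

/-- factor of the product formula -/
noncomputable def fac {n : ℕ} (ρ : Fin n → Option Bool) (φ : Fin n → Bool → ℝ) (i : Fin n) : ℝ :=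
  match ρ i with
  | some b => φ i b
  | none => φ i true + φ i false

lemma sum_cube_prod {n : ℕ} (ρ : Fin n → Option Bool) (φ : Fin n → Bool → ℝ) :
    ∑ x, cube ρ x * ∏ i, φ i (x i) = ∏ i, fac ρ φ i := by
  have h := Finset.prod_univ_sum (fun _ : Fin n => (Finset.univ : Finset Bool))
    (fun i b => (if ρ i = none ∨ ρ i = some b then (1:ℝ) else 0) * φ i b)
  rw [Fintype.piFinset_univ] at h
  have h1 : ∀ i, ∑ b : Bool, (if ρ i = none ∨ ρ i = some b then (1:ℝ) else 0) * φ i b
      = fac ρ φ i := by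
    intro i
    rw [Fintype.sum_bool]
    cases hi : ρ i with
    | none => simp [fac, hi]
    | some b => cases b <;> simp [fac, hi]
  simp only [h1] at h
  rw [h]
  apply Finset.sum_congr rfl
  intro x _
  rw [Finset.prod_mul_distrib, Finset.prod_boole]
  simp [cube]

lemma mass_mul {n : ℕ} (ρ : Fin n → Option Bool) : mass ρ * 2 ^ width ρ = 2 ^ n := by
  have h := sum_cube_prod ρ (fun _ _ => (1:ℝ))
  simp only [Finset.prod_const_one, mul_one] at h
  have h2 : (2:ℝ) ^ width ρ = ∏ i, (if ρ i ≠ none then (2:ℝ) else 1) := by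
    rw [Finset.prod_ite, width]; simp
  have h3 : (2:ℝ) ^ n = ∏ _i : Fin n, (2:ℝ) := by simp
  rw [mass, h, h2, h3, ← Finset.prod_mul_distrib]
  apply Finset.prod_congr rfl
  intro i _
  cases hi : ρ i with
  | none => simp [fac, hi]; norm_num
  | some b => simp [fac, hi]

lemma level_one_sum {n : ℕ} (f : (Fin n → Bool) → ℝ) :
    ∑ i, fourier f {i} = (∑ x, f x * lin x) / 2 ^ n := by
  simp only [fourier, Finset.prod_singleton, lin, Finset.mul_sum]
  rw [← Finset.sum_div, Finset.sum_comm]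

lemma cube_none {n : ℕ} (x : Fin n → Bool) : cube (fun _ => none) x = 1 := by simp [cube]

lemma sum_lin_sq (n : ℕ) : ∑ x : Fin n → Bool, lin x * lin x = 2 ^ n * n := by
  have h := sum_cube_lin_sq (fun _ : Fin n => (none : Option Bool))
  have hm := mass_mul (fun _ : Fin n => (none : Option Bool))
  have hw : width (fun _ : Fin n => (none : Option Bool)) = 0 := by simp [width]
  have hb : bias (fun _ : Fin n => (none : Option Bool)) = 0 := by simp [bias, sg]
  rw [hw] at hm h
  rw [hb] at h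
  simp only [cube_none, one_mul] at h
  rw [h]
  simp at hm
  rw [hm]; simp

section twosided

variable {n : ℕ} {ι : Type} [Fintype ι] (ρ : ι → Fin n → Option Bool) (c ε : ι → ℝ)
  (f : (Fin n → Bool) → ℝ)

lemma sum_weights (hone : ∀ x, ∑ j, c j * cube (ρ j) x = 1) :
    ∑ j, c j * mass (ρ j) = 2 ^ n := by
  simp only [mass, Finset.mul_sum]
  rw [Finset.sum_comm]
  simp only [hone]
  simp

lemma sum_f_lin (hf : ∀ x, f x = ∑ j, c j * ε j * cube (ρ j) x) :
    ∑ x, f x * lin x = ∑ j, c j * mass (ρ j) * ε j * bias (ρ j) := by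
  simp only [hf, Finset.sum_mul]
  rw [Finset.sum_comm]
  apply Finset.sum_congr rfl
  intro j _
  have : ∀ x, c j * ε j * cube (ρ j) x * lin x = c j * ε j * (cube (ρ j) x * lin x) := by
    intro x; ring
  simp only [this]
  rw [← Finset.mul_sum, sum_cube_lin]; ring

lemma sum_bias_sq (hone : ∀ x, ∑ j, c j * cube (ρ j) x = 1) :
    ∑ j, c j * mass (ρ j) * (bias (ρ j) * bias (ρ j)) = ∑ j, c j * mass (ρ j) * width (ρ j) := by
  have h1 : ∑ x : Fin n → Bool, (∑ j, c j * cube (ρ j) x) * (lin x * lin x) = 2 ^ n * n := by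
    simp only [hone, one_mul]; exact sum_lin_sq n
  have h2 : ∑ x : Fin n → Bool, (∑ j, c j * cube (ρ j) x) * (lin x * lin x)
      = ∑ j, c j * (mass (ρ j) * (bias (ρ j) * bias (ρ j) + n - width (ρ j))) := by
    simp only [Finset.sum_mul]
    rw [Finset.sum_comm]
    apply Finset.sum_congr rfl
    intro j _
    have : ∀ x, c j * cube (ρ j) x * (lin x * lin x) = c j * (cube (ρ j) x * (lin x * lin x)) := by
      intro x; ring
    simp only [this]
    rw [← Finset.mul_sum, sum_cube_lin_sq]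
  have h3 := sum_weights ρ c hone
  have h4 : ∑ j, c j * (mass (ρ j) * (bias (ρ j) * bias (ρ j) + n - width (ρ j)))
      = ∑ j, c j * mass (ρ j) * (bias (ρ j) * bias (ρ j)) + (∑ j, c j * mass (ρ j)) * n
        - ∑ j, c j * mass (ρ j) * width (ρ j) := by
    rw [Finset.sum_mul, ← Finset.sum_add_distrib, ← Finset.sum_sub_distrib]
    apply Finset.sum_congr rfl
    intro j _; ring
  rw [h2, h4, h3] at h1
  linarith

lemma two_sided_sq (hc : ∀ j, 0 ≤ c j) (hε : ∀ j, |ε j| ≤ 1)
    (hone : ∀ x, ∑ j, c j * cube (ρ j) x = 1)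
    (hf : ∀ x, f x = ∑ j, c j * ε j * cube (ρ j) x) :
    (∑ i, fourier f {i}) ^ 2 ≤ ∑ j, c j * (width (ρ j) / 2 ^ width (ρ j)) := by
  have hN : (0:ℝ) < 2 ^ n := by positivity
  have hw : ∀ j, 0 ≤ c j * mass (ρ j) := fun j => mul_nonneg (hc j) (mass_nonneg _)
  have hcs := Finset.sum_sq_le_sum_mul_sum_of_sq_le_mul (Finset.univ : Finset ι)
    (r := fun j => c j * mass (ρ j) * ε j * bias (ρ j)) (f := fun j => c j * mass (ρ j))
    (g := fun j => c j * mass (ρ j) * (bias (ρ j) * bias (ρ j)))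
    (fun j _ => hw j) (fun j _ => mul_nonneg (hw j) (mul_self_nonneg _))
    (fun j _ => by
      have h1 : ε j ^ 2 ≤ 1 := by
        have := hε j
        rw [abs_le] at this
        nlinarith [this.1, this.2]
      have h2 : 0 ≤ (c j * mass (ρ j) * bias (ρ j)) ^ 2 := sq_nonneg _
      calc (c j * mass (ρ j) * ε j * bias (ρ j)) ^ 2
          = (c j * mass (ρ j) * bias (ρ j)) ^ 2 * ε j ^ 2 := by ring
        _ ≤ (c j * mass (ρ j) * bias (ρ j)) ^ 2 * 1 := by gcongr
        _ = _ := by ring)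
  rw [← sum_f_lin ρ c ε f hf, sum_weights ρ c hone, sum_bias_sq ρ c hone] at hcs
  rw [level_one_sum, div_pow]
  have h5 : ∑ j, c j * mass (ρ j) * width (ρ j)
      = 2 ^ n * ∑ j, c j * (width (ρ j) / 2 ^ width (ρ j)) := by
    rw [Finset.mul_sum]
    apply Finset.sum_congr rfl
    intro j _
    have hm := mass_mul (ρ j)
    have hp : (0:ℝ) < 2 ^ width (ρ j) := by positivity
    field_simp
    rw [← hm]; ring
  rw [h5] at hcs
  rw [div_le_iff₀ (by positivity)]
  calc (∑ x, f x * lin x) ^ 2 ≤ 2 ^ n * (2 ^ n * ∑ j, c j * (width (ρ j) / 2 ^ width (ρ j))) := hcs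
    _ = _ := by ring

lemma avg_width_le (d : ℕ) (hc : ∀ j, 0 ≤ c j) (hone : ∀ x, ∑ j, c j * cube (ρ j) x = 1)
    (hd : ∀ j, width (ρ j) ≤ d) :
    ∑ j, c j * ((width (ρ j) : ℝ) / 2 ^ width (ρ j)) ≤ d := by
  have hN : (0:ℝ) < 2 ^ n := by positivity
  have h1 : ∑ j, c j * ((1 : ℝ) / 2 ^ width (ρ j)) = 1 := by
    have h := sum_weights ρ c hone
    have h2 : ∑ j, c j * mass (ρ j) = 2 ^ n * ∑ j, c j * ((1 : ℝ) / 2 ^ width (ρ j)) := by
      rw [Finset.mul_sum]
      apply Finset.sum_congr rfl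
      intro j _
      have hm := mass_mul (ρ j)
      have hp : (0:ℝ) < 2 ^ width (ρ j) := by positivity
      field_simp
      rw [← hm]; ring
    rw [h2] at h
    have : (2:ℝ) ^ n * ∑ j, c j * ((1 : ℝ) / 2 ^ width (ρ j)) = 2 ^ n * 1 := by rw [h]; ring
    exact mul_left_cancel₀ hN.ne' this
  calc ∑ j, c j * ((width (ρ j) : ℝ) / 2 ^ width (ρ j))
      ≤ ∑ j, (d : ℝ) * (c j * ((1 : ℝ) / 2 ^ width (ρ j))) := by
        apply Finset.sum_le_sum
        intro j _
        have hp : (0:ℝ) < 2 ^ width (ρ j) := by positivity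
        have hdj : (width (ρ j) : ℝ) ≤ d := by exact_mod_cast hd j
        have : c j * ((width (ρ j) : ℝ) / 2 ^ width (ρ j))
            = (width (ρ j) : ℝ) * (c j * ((1 : ℝ) / 2 ^ width (ρ j))) := by ring
        rw [this]
        apply mul_le_mul_of_nonneg_right hdj
        exact mul_nonneg (hc j) (by positivity)
    _ = d := by rw [← Finset.mul_sum, h1, mul_one]

end twosided

section onesided

open Real

lemma fac_exp_ge {n : ℕ} (ρ : Fin n → Option Bool) (τ : ℝ) (i : Fin n) :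
    (2 * cosh τ) * ((if ρ i ≠ none then (1/2 : ℝ) else 1)
        * exp (τ * sg ρ i - (if ρ i ≠ none then τ ^ 2 / 2 else 0)))
      ≤ fac ρ (fun _ b => exp (τ * sgn b)) i := by
  cases hi : ρ i with
  | none =>
    simp [fac, hi, sg, sgn, Real.cosh_eq]
    linarith
  | some b =>
    have h1 : cosh τ ≤ exp (τ ^ 2 / 2) := Real.cosh_le_exp_half_sq τ
    simp only [fac, hi, sg, ne_eq, reduceCtorEq, not_false_eq_true, if_true]
    rw [sub_eq_add_neg, Real.exp_add, Real.exp_neg]
    have h2 : 0 < exp (τ ^ 2 / 2) := Real.exp_pos _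
    have h3 : 0 < exp (τ * sgn b) := Real.exp_pos _
    have h4 : cosh τ * (exp (τ ^ 2 / 2))⁻¹ ≤ 1 := by
      rw [← div_eq_mul_inv, div_le_one h2]; exact h1
    calc 2 * cosh τ * (1 / 2 * (exp (τ * sgn b) * (exp (τ ^ 2 / 2))⁻¹))
        = exp (τ * sgn b) * (cosh τ * (exp (τ ^ 2 / 2))⁻¹) := by ring
      _ ≤ exp (τ * sgn b) * 1 := by gcongr
      _ = _ := by ring

lemma prod_lower {n : ℕ} (ρ : Fin n → Option Bool) (τ : ℝ) :
    ∏ i, ((2 * cosh τ) * ((if ρ i ≠ none then (1/2 : ℝ) else 1)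
        * exp (τ * sg ρ i - (if ρ i ≠ none then τ ^ 2 / 2 else 0))))
      = (2 * cosh τ) ^ n * ((1/2) ^ width ρ * exp (τ * bias ρ - width ρ * (τ ^ 2 / 2))) := by
  rw [Finset.prod_mul_distrib]
  congr 1
  · simp
  · rw [Finset.prod_mul_distrib, ← Real.exp_sum]
    congr 1
    · rw [Finset.prod_ite, width]; simp
    · congr 1
      rw [Finset.sum_sub_distrib, ← Finset.mul_sum, bias]
      congr 1
      rw [← Finset.sum_filter, width]
      simp

lemma sum_cube_exp_ge {n : ℕ} (ρ : Fin n → Option Bool) (τ : ℝ) :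
    (2 * cosh τ) ^ n * ((1/2) ^ width ρ * exp (τ * bias ρ - width ρ * (τ ^ 2 / 2)))
      ≤ ∑ x, cube ρ x * ∏ i, exp (τ * sgn (x i)) := by
  rw [sum_cube_prod ρ (fun _ b => exp (τ * sgn b)), ← prod_lower]
  apply Finset.prod_le_prod
  · intro i _
    have : 0 < cosh τ := Real.cosh_pos τ
    have h2 : (0:ℝ) ≤ (if ρ i ≠ none then (1/2 : ℝ) else 1) := by split_ifs <;> norm_num
    positivity
  · intro i _
    exact fac_exp_ge ρ τ i

lemma sum_exp_eq (n : ℕ) (τ : ℝ) :
    ∑ x : Fin n → Bool, ∏ i, exp (τ * sgn (x i)) = (2 * cosh τ) ^ n := by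
  have h := sum_cube_prod (fun _ : Fin n => (none : Option Bool)) (fun _ b => exp (τ * sgn b))
  simp only [cube_none, one_mul] at h
  rw [h]
  simp [fac, sgn, Real.cosh_eq]
  congr 1
  ring

variable {n : ℕ} {ι : Type} [Fintype ι] (ρ : ι → Fin n → Option Bool) (c : ι → ℝ)

lemma tilt (hc : ∀ j, 0 ≤ c j) (hle : ∀ x, ∑ j, c j * cube (ρ j) x ≤ 1) (τ : ℝ) :
    ∑ j, c j * ((1/2) ^ width (ρ j) * exp (τ * bias (ρ j) - width (ρ j) * (τ ^ 2 / 2))) ≤ 1 := by
  have hpos : 0 < (2 * cosh τ) ^ n := by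
    have : 0 < cosh τ := Real.cosh_pos τ
    positivity
  have h1 : ∑ x : Fin n → Bool, (∑ j, c j * cube (ρ j) x) * ∏ i, exp (τ * sgn (x i))
      ≤ (2 * cosh τ) ^ n := by
    rw [← sum_exp_eq n τ]
    apply Finset.sum_le_sum
    intro x _
    have hp : 0 ≤ ∏ i, exp (τ * sgn (x i)) := Finset.prod_nonneg fun i _ => (Real.exp_pos _).le
    calc (∑ j, c j * cube (ρ j) x) * ∏ i, exp (τ * sgn (x i))
        ≤ 1 * ∏ i, exp (τ * sgn (x i)) := mul_le_mul_of_nonneg_right (hle x) hp
      _ = _ := one_mul _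
  have h2 : ∑ x : Fin n → Bool, (∑ j, c j * cube (ρ j) x) * ∏ i, exp (τ * sgn (x i))
      = ∑ j, c j * ∑ x, cube (ρ j) x * ∏ i, exp (τ * sgn (x i)) := by
    simp only [Finset.sum_mul, Finset.mul_sum]
    rw [Finset.sum_comm]
    apply Finset.sum_congr rfl
    intro j _
    apply Finset.sum_congr rfl
    intro x _; ring
  have h3 : (2 * cosh τ) ^ n * ∑ j, c j * ((1/2) ^ width (ρ j)
      * exp (τ * bias (ρ j) - width (ρ j) * (τ ^ 2 / 2))) ≤ (2 * cosh τ) ^ n * 1 := by
    rw [mul_one]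
    refine le_trans ?_ h1
    rw [h2, Finset.mul_sum]
    apply Finset.sum_le_sum
    intro j _
    calc (2 * cosh τ) ^ n * (c j * ((1/2) ^ width (ρ j)
          * exp (τ * bias (ρ j) - width (ρ j) * (τ ^ 2 / 2))))
        = c j * ((2 * cosh τ) ^ n * ((1/2) ^ width (ρ j)
          * exp (τ * bias (ρ j) - width (ρ j) * (τ ^ 2 / 2)))) := by ring
      _ ≤ _ := mul_le_mul_of_nonneg_left (sum_cube_exp_ge (ρ j) τ) (hc j)
  exact le_of_mul_le_mul_left h3 hpos

lemma mass_eq {n : ℕ} (ρ : Fin n → Option Bool) : mass ρ = 2 ^ n * (1/2) ^ width ρ := by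
  have h := mass_mul ρ
  have hp : (0:ℝ) < 2 ^ width ρ := by positivity
  rw [one_div, inv_pow, ← h]
  field_simp

lemma conical_level_one (g : (Fin n → Bool) → ℝ) (hg : ∀ x, g x = ∑ j, c j * cube (ρ j) x) :
    ∑ i, fourier g {i} = ∑ j, c j * ((1/2) ^ width (ρ j) * bias (ρ j)) := by
  have hN : (0:ℝ) < 2 ^ n := by positivity
  have h := sum_f_lin ρ c (fun _ => 1) g (by intro x; rw [hg x]; simp)
  rw [level_one_sum, h, div_eq_iff hN.ne', Finset.sum_mul]
  apply Finset.sum_congr rfl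
  intro j _
  rw [mass_eq]; ring

lemma conical_mean (g : (Fin n → Bool) → ℝ) (hg : ∀ x, g x = ∑ j, c j * cube (ρ j) x) :
    fourier g ∅ = ∑ j, c j * (1/2) ^ width (ρ j) := by
  have hN : (0:ℝ) < 2 ^ n := by positivity
  simp only [fourier, Finset.prod_empty, mul_one, hg]
  rw [Finset.sum_comm, div_eq_iff hN.ne', Finset.sum_mul]
  apply Finset.sum_congr rfl
  intro j _
  rw [← Finset.mul_sum]
  have := mass_eq (ρ j)
  rw [mass] at this
  rw [this]; ring

/-- simple form: the level-one sum of a conical junta of width `d` bounded by one -/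
lemma one_sided_simple (d : ℕ) (hd1 : 1 ≤ d) (hc : ∀ j, 0 ≤ c j)
    (hle : ∀ x, ∑ j, c j * cube (ρ j) x ≤ 1) (hd : ∀ j, width (ρ j) ≤ d) :
    ∑ j, c j * ((1/2) ^ width (ρ j) * bias (ρ j)) ≤ sqrt d * exp (-(1/2)) := by
  have hdpos : (0:ℝ) < d := by exact_mod_cast hd1
  have hs : 0 < sqrt d := Real.sqrt_pos.mpr hdpos
  set τ : ℝ := 1 / sqrt d with hτ
  have hτpos : 0 < τ := by positivity
  have hτ2 : (d:ℝ) * τ ^ 2 = 1 := by
    rw [hτ, div_pow, Real.sq_sqrt hdpos.le]; field_simp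
  have ht := tilt ρ c hc hle τ
  have key : ∀ j, τ * bias (ρ j) * exp (1/2)
      ≤ exp (τ * bias (ρ j) - width (ρ j) * (τ ^ 2 / 2)) := by
    intro j
    by_cases hb : 0 ≤ bias (ρ j)
    · have h1 : τ * bias (ρ j) ≤ exp (τ * bias (ρ j) - 1) := by
        have := Real.add_one_le_exp (τ * bias (ρ j) - 1)
        linarith
      have hk : (width (ρ j) : ℝ) * (τ ^ 2 / 2) ≤ 1 / 2 := by
        have : (width (ρ j) : ℝ) ≤ d := by exact_mod_cast hd j
        have h3 : (width (ρ j) : ℝ) * τ ^ 2 ≤ d * τ ^ 2 := by gcongr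
        linarith
      have h2 : exp (1/2) ≤ exp (1 - width (ρ j) * (τ ^ 2 / 2)) := by
        apply Real.exp_le_exp.mpr; linarith
      calc τ * bias (ρ j) * exp (1/2)
          ≤ τ * bias (ρ j) * exp (1 - width (ρ j) * (τ ^ 2 / 2)) := by
            apply mul_le_mul_of_nonneg_left h2; positivity
        _ ≤ exp (τ * bias (ρ j) - 1) * exp (1 - width (ρ j) * (τ ^ 2 / 2)) := by
            apply mul_le_mul_of_nonneg_right h1 (Real.exp_pos _).le
        _ = _ := by rw [← Real.exp_add]; congr 1; ring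
    · have hb := not_le.mp hb
      have h1 : τ * bias (ρ j) * exp (1/2) ≤ 0 := by
        have : τ * bias (ρ j) ≤ 0 := by nlinarith
        exact mul_nonpos_of_nonpos_of_nonneg this (Real.exp_pos _).le
      exact le_trans h1 (Real.exp_pos _).le
  have h5 : (∑ j, c j * ((1/2) ^ width (ρ j) * bias (ρ j))) * (τ * exp (1/2)) ≤ 1 := by
    refine le_trans ?_ ht
    rw [Finset.sum_mul]
    apply Finset.sum_le_sum
    intro j _
    calc c j * ((1/2) ^ width (ρ j) * bias (ρ j)) * (τ * exp (1/2))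
        = c j * ((1/2) ^ width (ρ j) * (τ * bias (ρ j) * exp (1/2))) := by ring
      _ ≤ _ := by
        apply mul_le_mul_of_nonneg_left _ (hc j)
        apply mul_le_mul_of_nonneg_left (key j)
        positivity
  have h6 : 0 < τ * exp (1/2) := by positivity
  rw [← le_div_iff₀ h6] at h5
  refine le_trans h5 (le_of_eq ?_)
  rw [hτ, Real.exp_neg]
  field_simp

/-- general form: a level-one inequality with the width `d` in place of the dimension -/
lemma one_sided_general (d : ℕ) (hc : ∀ j, 0 ≤ c j)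
    (hle : ∀ x, ∑ j, c j * cube (ρ j) x ≤ 1) (hd : ∀ j, width (ρ j) ≤ d) :
    ∑ j, c j * ((1/2) ^ width (ρ j) * bias (ρ j))
      ≤ (∑ j, c j * (1/2) ^ width (ρ j))
        * sqrt (2 * d * log (1 / ∑ j, c j * (1/2) ^ width (ρ j))) := by
  set S := ∑ j, c j * ((1/2) ^ width (ρ j) * bias (ρ j)) with hS
  set μ := ∑ j, c j * (1/2) ^ width (ρ j) with hμ
  have hw : ∀ j, 0 ≤ c j * (1/2 : ℝ) ^ width (ρ j) := fun j => mul_nonneg (hc j) (by positivity)
  have hμ0 : 0 ≤ μ := Finset.sum_nonneg fun j _ => hw j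
  by_cases hSpos : S ≤ 0
  · exact le_trans hSpos (mul_nonneg hμ0 (Real.sqrt_nonneg _))
  have hSpos := not_le.mp hSpos
  have hμpos : 0 < μ := by
    rcases hμ0.lt_or_eq with h | h
    · exact h
    · exfalso
      have hz : ∀ j ∈ (Finset.univ : Finset ι), c j * (1/2 : ℝ) ^ width (ρ j) = 0 :=
        (Finset.sum_eq_zero_iff_of_nonneg fun j _ => hw j).mp h.symm
      have : S = 0 := by
        rw [hS]
        apply Finset.sum_eq_zero
        intro j hj
        rw [← mul_assoc, hz j hj, zero_mul]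
      linarith
  have hdpos : (0:ℝ) < d := by
    rcases Nat.eq_zero_or_pos d with h0 | h0
    · exfalso
      -- all widths are zero so all biases vanish
      have : S = 0 := by
        rw [hS]
        apply Finset.sum_eq_zero
        intro j _
        have hwj : width (ρ j) = 0 := by have := hd j; omega
        have hb : bias (ρ j) = 0 := by
          rw [bias]
          apply Finset.sum_eq_zero
          intro i _
          have : ρ j i = none := by
            by_contra hne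
            have hmem : i ∈ univ.filter fun i => ρ j i ≠ none := by simp [hne]
            rw [width, Finset.card_eq_zero] at hwj
            rw [hwj] at hmem
            simp at hmem
          simp [sg, this]
        rw [hb]; ring
      linarith
    · exact_mod_cast h0
  set τ : ℝ := S / (μ * d) with hτ
  have hτpos : 0 < τ := by positivity
  have ht := tilt ρ c hc hle τ
  set y0 : ℝ := τ * S / μ with hy0
  have key : ∀ j, exp (y0 - d * (τ ^ 2 / 2)) * (1 + τ * bias (ρ j) - y0)
      ≤ exp (τ * bias (ρ j) - width (ρ j) * (τ ^ 2 / 2)) := by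
    intro j
    have h1 : 1 + τ * bias (ρ j) - y0 ≤ exp (τ * bias (ρ j) - y0) := by
      have := Real.add_one_le_exp (τ * bias (ρ j) - y0)
      linarith
    have hk : (width (ρ j) : ℝ) * (τ ^ 2 / 2) ≤ d * (τ ^ 2 / 2) := by
      have : (width (ρ j) : ℝ) ≤ d := by exact_mod_cast hd j
      gcongr
    calc exp (y0 - d * (τ ^ 2 / 2)) * (1 + τ * bias (ρ j) - y0)
        ≤ exp (y0 - d * (τ ^ 2 / 2)) * exp (τ * bias (ρ j) - y0) :=
          mul_le_mul_of_nonneg_left h1 (Real.exp_pos _).le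
      _ = exp (τ * bias (ρ j) - d * (τ ^ 2 / 2)) := by rw [← Real.exp_add]; congr 1; ring
      _ ≤ _ := by apply Real.exp_le_exp.mpr; linarith
  have h5 : exp (y0 - d * (τ ^ 2 / 2)) * μ ≤ 1 := by
    refine le_trans (le_of_eq ?_) (le_trans (Finset.sum_le_sum fun j _ =>
      mul_le_mul_of_nonneg_left (mul_le_mul_of_nonneg_left (key j)
        (by positivity : (0:ℝ) ≤ (1/2) ^ width (ρ j))) (hc j)) ht)
    have : ∑ j, c j * ((1/2) ^ width (ρ j)
        * (exp (y0 - d * (τ ^ 2 / 2)) * (1 + τ * bias (ρ j) - y0)))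
        = exp (y0 - d * (τ ^ 2 / 2)) * ((1 - y0) * μ + τ * S) := by
      rw [hμ, hS, Finset.mul_sum, Finset.mul_sum, ← Finset.sum_add_distrib, Finset.mul_sum]
      apply Finset.sum_congr rfl
      intro j _; ring
    rw [this]
    congr 1
    rw [hy0]; field_simp; ring
  -- take logarithms
  have h6 : y0 - d * (τ ^ 2 / 2) ≤ log (1 / μ) := by
    rw [Real.le_log_iff_exp_le (by positivity), le_div_iff₀ hμpos]
    exact h5
  have h7 : y0 - d * (τ ^ 2 / 2) = S ^ 2 / (2 * μ ^ 2 * d) := by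
    rw [hy0, hτ]; field_simp; ring
  rw [h7] at h6
  have h8 : S ^ 2 ≤ μ ^ 2 * (2 * d * log (1 / μ)) := by
    rw [div_le_iff₀ (by positivity)] at h6
    nlinarith
  have h9 : S ≤ sqrt (μ ^ 2 * (2 * d * log (1 / μ))) := Real.le_sqrt_of_sq_le h8
  rwa [Real.sqrt_mul (sq_nonneg μ), Real.sqrt_sq hμ0] at h9

end onesided

section degree

lemma sum_cube_char {n : ℕ} (ρ : Fin n → Option Bool) (S : Finset (Fin n))
    (hS : width ρ < S.card) : ∑ x, cube ρ x * ∏ i ∈ S, sgn (x i) = 0 := by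
  have hex : ∃ i ∈ S, ρ i = none := by
    by_contra hno
    have hsub : S ⊆ univ.filter fun i => ρ i ≠ none := by
      intro i hi
      simp only [Finset.mem_filter, Finset.mem_univ, true_and]
      intro hnone
      exact hno ⟨i, hi, hnone⟩
    have := Finset.card_le_card hsub
    rw [width] at hS
    omega
  obtain ⟨i0, hi0, hnone⟩ := hex
  apply sum_eq_zero_of_flip i0
  intro x
  rw [cube_flip ρ i0 hnone, ← Finset.mul_prod_erase S _ hi0, ← Finset.mul_prod_erase S _ hi0,
    flip_same, sgn_not]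
  have : ∏ i ∈ S.erase i0, sgn (flip i0 x i) = ∏ i ∈ S.erase i0, sgn (x i) := by
    apply Finset.prod_congr rfl
    intro i hi
    rw [flip_ne (Finset.ne_of_mem_erase hi)]
  rw [this]; ring

lemma fourier_conical_zero {n : ℕ} {ι : Type} [Fintype ι] (ρ : ι → Fin n → Option Bool)
    (a : ι → ℝ) (g : (Fin n → Bool) → ℝ) (hg : ∀ x, g x = ∑ j, a j * cube (ρ j) x) (d : ℕ)
    (hd : ∀ j, width (ρ j) ≤ d) (S : Finset (Fin n)) (hS : d < S.card) : fourier g S = 0 := by
  simp only [fourier, hg, Finset.sum_mul]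
  rw [Finset.sum_comm]
  have : ∀ j, ∑ x, a j * cube (ρ j) x * ∏ i ∈ S, sgn (x i) = 0 := by
    intro j
    have h1 : ∀ x, a j * cube (ρ j) x * ∏ i ∈ S, sgn (x i)
        = a j * (cube (ρ j) x * ∏ i ∈ S, sgn (x i)) := by intro x; ring
    simp only [h1]
    rw [← Finset.mul_sum, sum_cube_char (ρ j) S (lt_of_le_of_lt (hd j) hS), mul_zero]
  simp [this]

lemma fourier_affine {n : ℕ} (g f : (Fin n → Bool) → ℝ) (hf : ∀ x, f x = 2 * g x - 1)
    (S : Finset (Fin n)) (hS : 0 < S.card) : fourier f S = 2 * fourier g S := by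
  have h0 : ∑ x : Fin n → Bool, ∏ i ∈ S, sgn (x i) = 0 := by
    have := sum_cube_char (fun _ : Fin n => (none : Option Bool)) S (by simpa [width] using hS)
    simpa [cube_none] using this
  simp only [fourier, hf]
  have : ∀ x : Fin n → Bool, (2 * g x - 1) * ∏ i ∈ S, sgn (x i)
      = 2 * (g x * ∏ i ∈ S, sgn (x i)) - ∏ i ∈ S, sgn (x i) := by intro x; ring
  simp only [this, Finset.sum_sub_distrib, h0, ← Finset.mul_sum]
  ring

lemma fourier_affine_empty {n : ℕ} (g f : (Fin n → Bool) → ℝ) (hf : ∀ x, f x = 2 * g x - 1) :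
    fourier f ∅ = 2 * fourier g ∅ - 1 := by
  have hN : (0:ℝ) < 2 ^ n := by positivity
  simp only [fourier, hf, Finset.prod_empty, mul_one, Finset.sum_sub_distrib, ← Finset.mul_sum]
  simp
  field_simp

end degree

section final

lemma partA (n d : ℕ) (ι : Type) [Fintype ι] (ρ : ι → Fin n → Option Bool) (c ε : ι → ℝ)
    (f : (Fin n → Bool) → ℝ) (hc : ∀ j, 0 ≤ c j) (hε : ∀ j, |ε j| ≤ 1)
    (hd : ∀ j, width (ρ j) ≤ d) (hone : ∀ x, ∑ j, c j * cube (ρ j) x = 1)
    (hf : ∀ x, f x = ∑ j, c j * ε j * cube (ρ j) x) :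
    (∀ S : Finset (Fin n), d < S.card → fourier f S = 0) ∧
    (∑ i, fourier f {i}) ^ 2 ≤ ∑ j, c j * (width (ρ j) / 2 ^ width (ρ j)) ∧
    ∑ i, fourier f {i} ≤ Real.sqrt d := by
  refine ⟨fun S hS => fourier_conical_zero ρ (fun j => c j * ε j) f hf d hd S hS,
    two_sided_sq ρ c ε f hc hε hone hf, ?_⟩
  exact Real.le_sqrt_of_sq_le
    (le_trans (two_sided_sq ρ c ε f hc hε hone hf) (avg_width_le ρ c d hc hone hd))

lemma partB (n d : ℕ) (ι : Type) [Fintype ι] (ρ : ι → Fin n → Option Bool) (c : ι → ℝ)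
    (f : (Fin n → Bool) → ℝ) (hc : ∀ j, 0 ≤ c j) (hd : ∀ j, width (ρ j) ≤ d)
    (hle : ∀ x, f x ≤ 1) (hf : ∀ x, f x = 2 * (∑ j, c j * cube (ρ j) x) - 1) :
    (∀ S : Finset (Fin n), d < S.card → fourier f S = 0) ∧
    ∑ i, fourier f {i}
      ≤ (1 + fourier f ∅) * Real.sqrt (2 * d * Real.log (2 / (1 + fourier f ∅))) ∧
    ∑ i, fourier f {i} ≤ 2 * Real.exp (-(1/2)) * Real.sqrt d := by
  set g : (Fin n → Bool) → ℝ := fun x => ∑ j, c j * cube (ρ j) x with hg
  have hgx : ∀ x, g x = ∑ j, c j * cube (ρ j) x := fun x => rfl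
  have hfg : ∀ x, f x = 2 * g x - 1 := hf
  have hg1 : ∀ x, ∑ j, c j * cube (ρ j) x ≤ 1 := by
    intro x
    have h1 := hle x
    rw [hf x] at h1
    linarith
  have hsum : ∑ i, fourier f {i} = 2 * ∑ i, fourier g {i} := by
    rw [Finset.mul_sum]
    apply Finset.sum_congr rfl
    intro i _
    exact fourier_affine g f hfg {i} (by simp)
  have hmean : 1 + fourier f ∅ = 2 * ∑ j, c j * (1/2) ^ width (ρ j) := by
    rw [fourier_affine_empty g f hfg, conical_mean ρ c g hgx]; ring
  have hgen := one_sided_general ρ c d hc hg1 hd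
  rw [← conical_level_one ρ c g hgx] at hgen
  refine ⟨?_, ?_, ?_⟩
  · intro S hS
    rw [fourier_affine g f hfg S (by omega), fourier_conical_zero ρ c g hgx d hd S hS, mul_zero]
  · have h2 : (2:ℝ) / (2 * ∑ j, c j * (1/2) ^ width (ρ j))
        = 1 / ∑ j, c j * (1/2) ^ width (ρ j) := by
      have := mul_div_mul_left (1:ℝ) (∑ j, c j * (1/2 : ℝ) ^ width (ρ j)) (two_ne_zero (α := ℝ))
      rw [mul_one] at this
      exact this
    rw [hsum, hmean, h2, mul_assoc]
    linarith
  · rw [hsum]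
    rcases Nat.eq_zero_or_pos d with h0 | h0
    · subst h0
      simp only [Nat.cast_zero, mul_zero, zero_mul, Real.sqrt_zero] at hgen ⊢
      linarith
    · have := one_sided_simple ρ c d h0 hc hg1 hd
      rw [← conical_level_one ρ c g hgx] at this
      linarith

lemma cube_eq_one {n : ℕ} {ρ : Fin n → Option Bool} {x : Fin n → Bool} (h : InCube ρ x) :
    cube ρ x = 1 := by
  unfold cube; exact if_pos h

lemma cube_eq_zero {n : ℕ} {ρ : Fin n → Option Bool} {x : Fin n → Bool} (h : ¬ InCube ρ x) :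
    cube ρ x = 0 := by
  unfold cube; exact if_neg h

lemma partA' (n d : ℕ) (ι : Type) [Fintype ι] (ρ : ι → Fin n → Option Bool)
    (f : (Fin n → Bool) → ℝ) (hb : ∀ x, f x = 1 ∨ f x = -1) (hd : ∀ j, width (ρ j) ≤ d)
    (hpart : ∀ x, ∃! j, InCube (ρ j) x)
    (hconst : ∀ j x y, InCube (ρ j) x → InCube (ρ j) y → f x = f y) :
    ∑ i, fourier f {i} ≤ Real.sqrt d := by
  classical
  let pt : ι → Fin n → Bool := fun j i => (ρ j i).getD true
  have hpt : ∀ j, InCube (ρ j) (pt j) := by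
    intro j i
    cases h : ρ j i with
    | none => exact Or.inl rfl
    | some b => right; simp [pt, h]
  have hsingle : ∀ (a : ι → ℝ) (x : Fin n → Bool) (j0 : ι), InCube (ρ j0) x →
      ∑ j, a j * cube (ρ j) x = a j0 := by
    intro a x j0 hj0
    rw [Finset.sum_eq_single j0]
    · rw [cube_eq_one hj0, mul_one]
    · intro j _ hne
      have : ¬ InCube (ρ j) x := fun hj => hne ((hpart x).unique hj hj0)
      rw [cube_eq_zero this, mul_zero]
    · intro h; exact absurd (Finset.mem_univ _) h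
  refine (partA n d ι ρ (fun _ => 1) (fun j => f (pt j)) f (fun _ => zero_le_one) ?_ hd ?_ ?_).2.2
  · intro j
    rcases hb (pt j) with h | h <;> simp [h]
  · intro x
    obtain ⟨j0, hj0, _⟩ := hpart x
    exact hsingle (fun _ => 1) x j0 hj0
  · intro x
    obtain ⟨j0, hj0, _⟩ := hpart x
    rw [hsingle (fun j => 1 * f (pt j)) x j0 hj0, one_mul]
    exact hconst j0 x (pt j0) hj0 (hpt j0)

lemma partB' (n d : ℕ) (ι : Type) [Fintype ι] (ρ : ι → Fin n → Option Bool)
    (f : (Fin n → Bool) → ℝ) (hb : ∀ x, f x = 1 ∨ f x = -1) (hd : ∀ j, width (ρ j) ≤ d)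
    (hdisj : ∀ x j k, InCube (ρ j) x → InCube (ρ k) x → j = k)
    (hf : ∀ x, f x = 1 ↔ ∃ j, InCube (ρ j) x) :
    ∑ i, fourier f {i} ≤ 2 * Real.exp (-(1/2)) * Real.sqrt d := by
  classical
  refine (partB n d ι ρ (fun _ => 1) f (fun _ => zero_le_one) hd ?_ ?_).2.2
  · intro x
    rcases hb x with h | h
    · rw [h]
    · rw [h]; norm_num
  · intro x
    by_cases hx : ∃ j, InCube (ρ j) x
    · obtain ⟨j0, hj0⟩ := hx
      have : ∑ j, (1:ℝ) * cube (ρ j) x = 1 := by
        rw [Finset.sum_eq_single j0]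
        · rw [cube_eq_one hj0, mul_one]
        · intro j _ hne
          have : ¬ InCube (ρ j) x := fun hj => hne (hdisj x j j0 hj hj0)
          rw [cube_eq_zero this, mul_zero]
        · intro h; exact absurd (Finset.mem_univ _) h
      rw [this, (hf x).mpr ⟨j0, hj0⟩]; norm_num
    · have h0 : ∑ j, (1:ℝ) * cube (ρ j) x = 0 := by
        apply Finset.sum_eq_zero
        intro j _
        have : ¬ InCube (ρ j) x := fun hj => hx ⟨j, hj⟩
        rw [cube_eq_zero this, mul_zero]
      have h1 : f x = -1 := by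
        rcases hb x with h | h
        · exact absurd ((hf x).mp h) hx
        · exact h
      rw [h0, h1]; norm_num

end final

/-- **Square-root bounds for conical juntas.**
(A) fractional partitions of the cube into subcubes of codimension at most `d`;
(B) one-sided nonnegative combinations of subcubes of codimension at most `d`;
(A') Boolean functions constant on the parts of a subcube partition;
(B') Boolean functions given by an unambiguous DNF of width `d`. -/
theorem result :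
    (∀ (n d : ℕ) (ι : Type) [Fintype ι] (ρ : ι → Fin n → Option Bool) (c ε : ι → ℝ)
      (f : (Fin n → Bool) → ℝ),
      (∀ j, 0 ≤ c j) → (∀ j, |ε j| ≤ 1) → (∀ j, width (ρ j) ≤ d) →
      (∀ x, ∑ j, c j * cube (ρ j) x = 1) →
      (∀ x, f x = ∑ j, c j * ε j * cube (ρ j) x) →
      (∀ S : Finset (Fin n), d < S.card → fourier f S = 0) ∧
      (∑ i, fourier f {i}) ^ 2 ≤ ∑ j, c j * (width (ρ j) / 2 ^ width (ρ j)) ∧
      ∑ i, fourier f {i} ≤ Real.sqrt d) ∧
    (∀ (n d : ℕ) (ι : Type) [Fintype ι] (ρ : ι → Fin n → Option Bool) (c : ι → ℝ)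
      (f : (Fin n → Bool) → ℝ),
      (∀ j, 0 ≤ c j) → (∀ j, width (ρ j) ≤ d) → (∀ x, f x ≤ 1) →
      (∀ x, f x = 2 * (∑ j, c j * cube (ρ j) x) - 1) →
      (∀ S : Finset (Fin n), d < S.card → fourier f S = 0) ∧
      ∑ i, fourier f {i}
        ≤ (1 + fourier f ∅) * Real.sqrt (2 * d * Real.log (2 / (1 + fourier f ∅))) ∧
      ∑ i, fourier f {i} ≤ 2 * Real.exp (-(1/2)) * Real.sqrt d) ∧
    (∀ (n d : ℕ) (ι : Type) [Fintype ι] (ρ : ι → Fin n → Option Bool)
      (f : (Fin n → Bool) → ℝ),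
      (∀ x, f x = 1 ∨ f x = -1) → (∀ j, width (ρ j) ≤ d) →
      (∀ x, ∃! j, InCube (ρ j) x) →
      (∀ j x y, InCube (ρ j) x → InCube (ρ j) y → f x = f y) →
      ∑ i, fourier f {i} ≤ Real.sqrt d) ∧
    (∀ (n d : ℕ) (ι : Type) [Fintype ι] (ρ : ι → Fin n → Option Bool)
      (f : (Fin n → Bool) → ℝ),
      (∀ x, f x = 1 ∨ f x = -1) → (∀ j, width (ρ j) ≤ d) →
      (∀ x j k, InCube (ρ j) x → InCube (ρ k) x → j = k) →
      (∀ x, f x = 1 ↔ ∃ j, InCube (ρ j) x) →
      ∑ i, fourier f {i} ≤ 2 * Real.exp (-(1/2)) * Real.sqrt d) :=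
  ⟨fun n d ι _ ρ c ε f hc hε hd hone hf => partA n d ι ρ c ε f hc hε hd hone hf,
   fun n d ι _ ρ c f hc hd hle hf => partB n d ι ρ c f hc hd hle hf,
   fun n d ι _ ρ f hb hd hp hcst => partA' n d ι ρ f hb hd hp hcst,
   fun n d ι _ ρ f hb hd hdj hf => partB' n d ι ρ f hb hd hdj hf⟩

end Vale.Agent.Results.P047.ConicalJunta
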