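import Mathlib
import Vale.Agent.Results.P047.ConicalJunta

namespace Vale.Agent.Results.P047.DegreeFour

open Finset BigOperators
open Vale.Agent.Results.P047.ConicalJunta

/-- restriction of `f` obtained by fixing coordinate `i` to the bit `b` -/
noncomputable def res {n : ℕ} (f : (Fin (n + 1) → Bool) → ℝ) (i : Fin (n + 1)) (b : Bool) :
    (Fin n → Bool) → ℝ := fun x => f (Fin.insertNth i b x)

lemma sum_split {n : ℕ} (i : Fin (n + 1)) (Φ : (Fin (n + 1) → Bool) → ℝ) :
    ∑ y, Φ y = ∑ x : Fin n → Bool, Φ (Fin.insertNth i true x)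
      + ∑ x : Fin n → Bool, Φ (Fin.insertNth i false x) := by
  rw [← (Fin.insertNthEquiv (fun _ => Bool) i).sum_comp Φ, Fintype.sum_prod_type,
    Fintype.sum_bool]
  rfl

lemma prod_map_ins {n : ℕ} (i : Fin (n + 1)) (b : Bool) (x : Fin n → Bool) (S : Finset (Fin n)) :
    ∏ j ∈ S.map i.succAboveEmb, sgn ((Fin.insertNth i b x : Fin (n + 1) → Bool) j)
      = ∏ j ∈ S, sgn (x j) := by
  rw [Finset.prod_map]
  apply Finset.prod_congr rfl
  intro j _
  simp [Fin.succAboveEmb]

lemma not_mem_map {n : ℕ} (i : Fin (n + 1)) (S : Finset (Fin n)) :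
    i ∉ S.map i.succAboveEmb := by
  simp [Fin.succAboveEmb, Fin.succAbove_ne]

lemma fourier_map {n : ℕ} (f : (Fin (n + 1) → Bool) → ℝ) (i : Fin (n + 1)) (S : Finset (Fin n)) :
    fourier f (S.map i.succAboveEmb)
      = (fourier (res f i true) S + fourier (res f i false) S) / 2 := by
  simp only [ConicalJunta.fourier, res]
  rw [sum_split i]
  simp only [prod_map_ins]
  rw [pow_succ]
  field_simp

lemma fourier_insert {n : ℕ} (f : (Fin (n + 1) → Bool) → ℝ) (i : Fin (n + 1))
    (S : Finset (Fin n)) :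
    fourier f (insert i (S.map i.succAboveEmb))
      = (fourier (res f i true) S - fourier (res f i false) S) / 2 := by
  simp only [ConicalJunta.fourier, res]
  rw [sum_split i]
  simp only [Finset.prod_insert (not_mem_map i S), prod_map_ins, Fin.insertNth_apply_same]
  rw [pow_succ]
  simp only [sgn]
  simp
  field_simp
  ring

lemma fourier_res {n : ℕ} (f : (Fin (n + 1) → Bool) → ℝ) (i : Fin (n + 1)) (b : Bool)
    (S : Finset (Fin n)) :
    fourier (res f i b) S = fourier f (S.map i.succAboveEmb)
      + sgn b * fourier f (insert i (S.map i.succAboveEmb)) := by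
  rw [fourier_map, fourier_insert]
  cases b <;> simp [sgn] <;> ring

lemma res_degree {n : ℕ} (f : (Fin (n + 1) → Bool) → ℝ) (i : Fin (n + 1)) (b : Bool) (d : ℕ)
    (h : ∀ U : Finset (Fin (n + 1)), d < U.card → fourier f U = 0) (S : Finset (Fin n))
    (hS : d < S.card) : fourier (res f i b) S = 0 := by
  rw [fourier_res, h _ (by rw [Finset.card_map]; exact hS),
    h _ (by rw [Finset.card_insert_of_notMem (not_mem_map i S), Finset.card_map]; omega)]
  simp

/-- the level-one sum -/
noncomputable def lev {n : ℕ} (f : (Fin n → Bool) → ℝ) : ℝ := ∑ i, fourier f {i}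

lemma lev_split {n : ℕ} (f : (Fin (n + 1) → Bool) → ℝ) (i : Fin (n + 1)) :
    lev f = fourier f {i} + (lev (res f i true) + lev (res f i false)) / 2 := by
  unfold lev
  rw [Fin.sum_univ_succAbove _ i, ← Finset.sum_add_distrib, Finset.sum_div]
  congr 1
  apply Finset.sum_congr rfl
  intro j _
  rw [← fourier_map]
  congr 1


lemma fourier_sub_fun {n : ℕ} (f g : (Fin n → Bool) → ℝ) (S : Finset (Fin n)) :
    fourier (fun x => f x - g x) S = fourier f S - fourier g S := by
  simp only [ConicalJunta.fourier, sub_mul, Finset.sum_sub_distrib, sub_div]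

lemma lev_sub_fun {n : ℕ} (f g : (Fin n → Bool) → ℝ) :
    lev (fun x => f x - g x) = lev f - lev g := by
  simp only [lev, fourier_sub_fun, Finset.sum_sub_distrib]

/-- integrality: mean and level-one sum of an integer valued function of degree below `d`
are the value and half the derivative at `1/2` of an integer polynomial of degree below `d` -/
lemma int_poly (n : ℕ) : ∀ (d : ℕ) (f : (Fin n → Bool) → ℝ), (∀ x, ∃ z : ℤ, f x = z) →
    (∀ S : Finset (Fin n), d ≤ S.card → fourier f S = 0) →
    ∃ Q : Polynomial ℤ, (∀ m, d ≤ m → Q.coeff m = 0) ∧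
      fourier f ∅ = Polynomial.aeval (1/2 : ℝ) Q ∧
      lev f = (1/2) * Polynomial.aeval (1/2 : ℝ) (Polynomial.derivative Q) := by
  induction n with
  | zero =>
    intro d f hz hd
    cases d with
    | zero =>
      refine ⟨0, by simp, ?_, ?_⟩
      · rw [hd ∅ (by simp)]; simp
      · simp [lev]
    | succ k =>
      obtain ⟨z, hz⟩ := hz default
      refine ⟨Polynomial.C z, ?_, ?_, ?_⟩
      · intro m hm
        rw [Polynomial.coeff_C]
        simp; omega
      · simp [ConicalJunta.fourier]
        rw [← hz]; congr 1; exact Subsingleton.elim _ _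
      · simp [lev]
  | succ n ih =>
    intro d f hz hd
    cases d with
    | zero =>
      refine ⟨0, by simp, ?_, ?_⟩
      · rw [hd ∅ (by simp)]; simp
      · simp only [lev]
        rw [Finset.sum_eq_zero (fun i _ => hd {i} (by simp))]; simp
    | succ k =>
      obtain ⟨Q0, hQ0, hm0, hl0⟩ := ih (k + 1) (res f 0 false) (fun x => hz _) (by
        intro S hS
        rw [fourier_res, hd _ (by rw [Finset.card_map]; exact hS),
          hd _ (by rw [Finset.card_insert_of_notMem (not_mem_map 0 S), Finset.card_map]; omega)]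
        simp)
      obtain ⟨Qh, hQh, hmh, hlh⟩ := ih k (fun x => res f 0 true x - res f 0 false x) (by
        intro x
        obtain ⟨a, ha⟩ := hz (Fin.insertNth 0 true x)
        obtain ⟨b, hb⟩ := hz (Fin.insertNth 0 false x)
        exact ⟨a - b, by simp only [res]; rw [ha, hb]; push_cast; ring⟩) (by
        intro S hS
        have h1 := fourier_insert f 0 S
        rw [hd _ (by rw [Finset.card_insert_of_notMem (not_mem_map 0 S), Finset.card_map]; omega)]
          at h1
        rw [fourier_sub_fun]; linarith)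
      rw [fourier_sub_fun] at hmh
      rw [lev_sub_fun] at hlh
      refine ⟨Q0 + Polynomial.X * Qh, ?_, ?_, ?_⟩
      · intro m hm
        obtain ⟨m', rfl⟩ : ∃ m', m = m' + 1 := ⟨m - 1, by omega⟩
        rw [Polynomial.coeff_add, Polynomial.coeff_X_mul, hQ0 _ hm, hQh _ (by omega)]
        simp
      · have h1 := fourier_map f 0 ∅
        rw [Finset.map_empty] at h1
        rw [h1, map_add, map_mul, Polynomial.aeval_X, ← hm0, ← hmh]; ring
      · have h1 := fourier_insert f 0 ∅
        rw [Finset.map_empty] at h1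
        have h2 : (insert (0 : Fin (n + 1)) (∅ : Finset (Fin (n + 1)))) = {0} := rfl
        rw [h2] at h1
        rw [lev_split f 0, h1, Polynomial.derivative_add, Polynomial.derivative_mul,
          Polynomial.derivative_X, map_add, map_add, map_mul, map_mul, Polynomial.aeval_X,
          map_one, one_mul, ← hmh]
        linarith

/-- four times the level-one sum of a Boolean function of degree at most four is an integer -/
lemma quarter {n : ℕ} (F : (Fin n → Bool) → ℝ) (hb : ∀ x, F x = 1 ∨ F x = -1)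
    (hd : ∀ S : Finset (Fin n), 4 < S.card → fourier F S = 0) : ∃ z : ℤ, 4 * lev F = z := by
  have hF : ∀ x, F x = 2 * ((1 + F x) / 2) - 1 := by intro x; ring
  obtain ⟨Q, hQ, -, hl⟩ := int_poly n 5 (fun x => (1 + F x) / 2) (by
    intro x
    rcases hb x with h | h
    · exact ⟨1, by rw [h]; norm_num⟩
    · exact ⟨0, by rw [h]; norm_num⟩) (by
    intro S hS
    have h1 := fourier_affine (fun x => (1 + F x) / 2) F hF S (by omega)
    rw [hd S (by omega)] at h1
    linarith)
  have hlev : lev F = 2 * lev (fun x => (1 + F x) / 2) := by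
    simp only [lev, Finset.mul_sum]
    apply Finset.sum_congr rfl
    intro i _
    exact fourier_affine (fun x => (1 + F x) / 2) F hF {i} (by simp)
  have hdeg : (Polynomial.derivative Q).natDegree < 4 := by
    have : (Polynomial.derivative Q).natDegree ≤ 3 := by
      rw [Polynomial.natDegree_le_iff_coeff_eq_zero]
      intro N hN
      rw [Polynomial.coeff_derivative, hQ (N + 1) (by omega)]
      simp
    omega
  rw [Polynomial.aeval_eq_sum_range' hdeg] at hl
  simp only [Finset.sum_range_succ, Finset.sum_range_zero, Polynomial.coeff_derivative,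
    zsmul_eq_mul] at hl
  refine ⟨4 * Q.coeff 1 + 4 * Q.coeff 2 + 3 * Q.coeff 3 + 2 * Q.coeff 4, ?_⟩
  rw [hlev, hl]
  push_cast
  ring


/-- number of true coordinates -/
def cnt {n : ℕ} (x : Fin n → Bool) : ℕ := (univ.filter fun i => x i = true).card

lemma cnt_le {n : ℕ} (x : Fin n → Bool) : cnt x ≤ n := by
  have := Finset.card_filter_le (univ : Finset (Fin n)) (fun i => x i = true)
  simpa [cnt] using this

lemma prod_one_add_sgn {n : ℕ} (z : ℝ) (x : Fin n → Bool) :
    ∏ i, (1 + z * sgn (x i)) = (1 + z) ^ cnt x * (1 - z) ^ (n - cnt x) := by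
  have h : ∀ i, (1 + z * sgn (x i)) = if x i = true then 1 + z else 1 - z := by
    intro i; cases x i <;> simp [sgn]; ring
  simp only [h]
  rw [Finset.prod_ite]
  simp only [Finset.prod_const]
  have h2 := Finset.card_filter_add_card_filter_not (s := (univ : Finset (Fin n)))
    (fun i => x i = true)
  simp only [Finset.card_univ, Fintype.card_fin] at h2
  have h3 : (univ.filter fun i => ¬ x i = true).card = n - cnt x := by
    unfold cnt; omega
  rw [h3]; rfl

/-- sum of the Fourier coefficients of level `j` -/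
noncomputable def lvl {n : ℕ} (F : (Fin n → Bool) → ℝ) (j : ℕ) : ℝ :=
  ∑ S ∈ powersetCard j (univ : Finset (Fin n)), fourier F S

lemma gen_fun {n : ℕ} (F : (Fin n → Bool) → ℝ) (z : ℝ) :
    ∑ x, F x * ∏ i, (1 + z * sgn (x i)) = 2 ^ n * ∑ j ∈ range (n + 1), z ^ j * lvl F j := by
  have h1 : ∀ x : Fin n → Bool, ∏ i, (1 + z * sgn (x i))
      = ∑ S ∈ (univ : Finset (Fin n)).powerset, z ^ S.card * ∏ i ∈ S, sgn (x i) := by
    intro x
    rw [Finset.prod_one_add]
    apply Finset.sum_congr rfl
    intro S _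
    rw [Finset.prod_mul_distrib, Finset.prod_const]
  simp only [h1, Finset.mul_sum]
  rw [Finset.sum_comm, Finset.sum_powerset]
  simp only [Finset.card_univ, Fintype.card_fin]
  apply Finset.sum_congr rfl
  intro j _
  simp only [lvl, Finset.mul_sum]
  apply Finset.sum_congr rfl
  intro S hS
  rw [Finset.mem_powersetCard] at hS
  simp only [ConicalJunta.fourier]
  rw [hS.2, Finset.sum_div, Finset.mul_sum, Finset.mul_sum]
  apply Finset.sum_congr rfl
  intro x _
  have : (2:ℝ) ^ n ≠ 0 := by positivity
  field_simp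

lemma lvl_one {n : ℕ} (F : (Fin n → Bool) → ℝ) : lvl F 1 = lev F := by
  simp only [lvl, lev, Finset.powersetCard_one, Finset.sum_map]
  rfl

lemma lvl_zero_of_degree {n : ℕ} (F : (Fin n → Bool) → ℝ) (d : ℕ)
    (hd : ∀ S : Finset (Fin n), d < S.card → fourier F S = 0) (j : ℕ) (hj : d < j) :
    lvl F j = 0 := by
  apply Finset.sum_eq_zero
  intro S hS
  rw [Finset.mem_powersetCard] at hS
  exact hd S (by omega)

/-- sum of `F` over the layer of weight `k` -/
noncomputable def lay {n : ℕ} (F : (Fin n → Bool) → ℝ) (k : ℕ) : ℝ :=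
  ∑ x ∈ univ.filter (fun x : Fin n → Bool => cnt x = k), F x

lemma lay_gen {n : ℕ} (F : (Fin n → Bool) → ℝ) (z : ℝ) :
    ∑ k ∈ range (n + 1), lay F k * ((1 + z) ^ k * (1 - z) ^ (n - k))
      = ∑ x, F x * ∏ i, (1 + z * sgn (x i)) := by
  rw [← Finset.sum_fiberwise_of_maps_to (s := univ) (t := range (n + 1)) (g := cnt)
    (fun x _ => by rw [Finset.mem_range]; have := cnt_le x; omega)]
  apply Finset.sum_congr rfl
  intro k _
  rw [lay, Finset.sum_mul]
  apply Finset.sum_congr rfl
  intro x hx
  rw [Finset.mem_filter] at hx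
  rw [prod_one_add_sgn, hx.2]

lemma sum_prod_one {n : ℕ} (z : ℝ) :
    ∑ x : Fin n → Bool, (1:ℝ) * ∏ i, (1 + z * sgn (x i)) = 2 ^ n := by
  have h := sum_cube_prod (fun _ : Fin n => (none : Option Bool)) (fun _ b => 1 + z * sgn b)
  simp only [cube_none] at h
  rw [h]
  simp only [fac, sgn]
  simp
  congr 1
  ring

lemma lay_abs {n : ℕ} (F : (Fin n → Bool) → ℝ) (hb : ∀ x, F x = 1 ∨ F x = -1) (k : ℕ) :
    |lay F k| ≤ lay (fun _ : Fin n → Bool => (1:ℝ)) k := by
  unfold lay
  refine le_trans (Finset.abs_sum_le_sum_abs _ _) ?_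
  apply Finset.sum_le_sum
  intro x _
  rcases hb x with h | h <;> rw [h] <;> simp

lemma lp_core (n : ℕ) (hn1 : 1 ≤ n) (hn : n ≤ 8) (A N c : ℕ → ℝ)
    (hA : ∀ z : ℝ, ∑ k ∈ range (n + 1), A k * ((1 + z) ^ k * (1 - z) ^ (n - k))
      = 2 ^ n * ∑ j ∈ range (n + 1), z ^ j * c j)
    (hN : ∀ z : ℝ, ∑ k ∈ range (n + 1), N k * ((1 + z) ^ k * (1 - z) ^ (n - k)) = 2 ^ n)
    (hAN : ∀ k, |A k| ≤ N k) (hc : ∀ j, 5 ≤ j → c j = 0) : c 1 < 2 := by
  have h5 := hc 5 (le_refl _)
  have h6 := hc 6 (by norm_num)
  have h7 := hc 7 (by norm_num)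
  have h8 := hc 8 (by norm_num)
  have b0 := abs_le.mp (hAN 0)
  have b1 := abs_le.mp (hAN 1)
  have b2 := abs_le.mp (hAN 2)
  have b3 := abs_le.mp (hAN 3)
  have b4 := abs_le.mp (hAN 4)
  have b5 := abs_le.mp (hAN 5)
  have b6 := abs_le.mp (hAN 6)
  have b7 := abs_le.mp (hAN 7)
  have b8 := abs_le.mp (hAN 8)
  have a0 := hA 0
  have a1 := hA 1
  have a2 := hA (-1)
  have a3 := hA (1/2)
  have a4 := hA (-1/2)
  have a5 := hA 2
  have a6 := hA (-2)
  have a7 := hA 3
  have a8 := hA (-3)
  have n0 := hN 0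
  have n1 := hN 1
  have n2 := hN (-1)
  have n3 := hN (1/2)
  have n4 := hN (-1/2)
  have n5 := hN 2
  have n6 := hN (-2)
  have n7 := hN 3
  have n8 := hN (-3)
  interval_cases n <;>
    simp only [Finset.sum_range_succ, Finset.sum_range_zero, h5, h6, h7, h8]
      at a0 a1 a2 a3 a4 a5 a6 a7 a8 n0 n1 n2 n3 n4 n5 n6 n7 n8 <;>
    norm_num at a0 a1 a2 a3 a4 a5 a6 a7 a8 n0 n1 n2 n3 n4 n5 n6 n7 n8 <;>
    linarith

lemma base_lt {n : ℕ} (hn : n ≤ 8) (F : (Fin n → Bool) → ℝ) (hb : ∀ x, F x = 1 ∨ F x = -1)
    (hd : ∀ S : Finset (Fin n), 4 < S.card → fourier F S = 0) : lev F < 2 := by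
  rcases Nat.eq_zero_or_pos n with h0 | h0
  · subst h0
    simp [lev]
  · rw [← lvl_one]
    apply lp_core n h0 hn (lay F) (lay (fun _ : Fin n → Bool => (1:ℝ))) (lvl F)
    · intro z
      rw [lay_gen, gen_fun]
    · intro z
      rw [lay_gen, sum_prod_one]
    · exact lay_abs F hb
    · intro j hj
      exact lvl_zero_of_degree F 4 hd j (by omega)

lemma le_of_lt_two {n : ℕ} (F : (Fin n → Bool) → ℝ) (hb : ∀ x, F x = 1 ∨ F x = -1)
    (hd : ∀ S : Finset (Fin n), 4 < S.card → fourier F S = 0) (h : lev F < 2) :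
    lev F ≤ 7 / 4 := by
  obtain ⟨z, hz⟩ := quarter F hb hd
  have h1 : (z : ℝ) < 8 := by rw [← hz]; linarith
  have h2 : z < 8 := by exact_mod_cast h1
  have h3 : z ≤ 7 := by omega
  have h4 : (z : ℝ) ≤ 7 := by exact_mod_cast h3
  linarith

theorem upper (n : ℕ) : ∀ (F : (Fin n → Bool) → ℝ), (∀ x, F x = 1 ∨ F x = -1) →
    (∀ S : Finset (Fin n), 4 < S.card → fourier F S = 0) → lev F ≤ 7 / 4 := by
  induction n with
  | zero =>
    intro F hb hd
    exact le_of_lt_two F hb hd (base_lt (by norm_num) F hb hd)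
  | succ m ih =>
    intro F hb hd
    by_cases hm : m + 1 ≤ 8
    · exact le_of_lt_two F hb hd (base_lt hm F hb hd)
    · apply le_of_lt_two F hb hd
      obtain ⟨i, -, hi⟩ := Finset.exists_min_image (univ : Finset (Fin (m + 1)))
        (fun i => fourier F {i}) ⟨0, Finset.mem_univ _⟩
      have h1 : ((m : ℝ) + 1) * fourier F {i} ≤ lev F := by
        have := Finset.card_nsmul_le_sum (univ : Finset (Fin (m + 1))) (fun i => fourier F {i})
          (fourier F {i}) (fun j hj => hi j hj)
        simp only [Finset.card_univ, Fintype.card_fin, nsmul_eq_mul] at this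
        push_cast at this
        exact this
      have h2 := lev_split F i
      have h3 := ih (res F i true) (fun x => hb _) (res_degree F i true 4 hd)
      have h4 := ih (res F i false) (fun x => hb _) (res_degree F i false 4 hd)
      have hm' : (8:ℝ) ≤ m := by
        have : 8 ≤ m := by omega
        exact_mod_cast this
      by_contra hcon
      have hcon := not_lt.mp hcon
      have h5 : lev F - 7 / 4 ≤ fourier F {i} := by linarith
      nlinarith


/-- the seven terms: coordinate `j` is false, coordinates `j+1, j+2, j+4` (mod 7) are true -/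
def term (j : Fin 7) : Fin 7 → Option Bool := fun i =>
  if i = j then some false else if i = j + 1 ∨ i = j + 2 ∨ i = j + 4 then some true else none

lemma term_conflict : ∀ j k : Fin 7, j ≠ k →
    ∃ i : Fin 7, ∃ b : Bool, term j i = some b ∧ term k i = some (!b) := by
  decide

lemma term_disj (x : Fin 7 → Bool) (j k : Fin 7) (hj : InCube (term j) x)
    (hk : InCube (term k) x) : j = k := by
  by_contra hne
  obtain ⟨i, b, h1, h2⟩ := term_conflict j k hne
  have e1 := hj i
  have e2 := hk i
  rw [h1] at e1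
  rw [h2] at e2
  simp at e1 e2
  rw [← e1] at e2
  cases b <;> simp at e2

lemma width_term : ∀ j : Fin 7, width (term j) = 4 := by
  decide

/-- integer version of the forced sign -/
def sgZ {n : ℕ} (ρ : Fin n → Option Bool) (i : Fin n) : ℤ :=
  match ρ i with
  | some true => 1
  | some false => -1
  | none => 0

lemma sg_eq {n : ℕ} (ρ : Fin n → Option Bool) (i : Fin n) : sg ρ i = (sgZ ρ i : ℝ) := by
  unfold sg sgZ
  rcases h : ρ i with _ | b
  · simp
  · cases b <;> simp [sgn]

lemma sum_sgZ_term : ∀ j : Fin 7, ∑ i, sgZ (term j) i = 2 := by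
  decide

lemma bias_term (j : Fin 7) : bias (term j) = 2 := by
  have h := sum_sgZ_term j
  have h2 : bias (term j) = ((∑ i, sgZ (term j) i : ℤ) : ℝ) := by
    simp only [bias, sg_eq]
    push_cast
    rfl
  rw [h2, h]
  norm_num

theorem example7 : ∃ F : (Fin 7 → Bool) → ℝ, (∀ x, F x = 1 ∨ F x = -1) ∧
    (∀ S : Finset (Fin 7), 4 < S.card → fourier F S = 0) ∧ ∑ i, fourier F {i} = 7 / 4 := by
  set g : (Fin 7 → Bool) → ℝ := fun x => ∑ j, (1:ℝ) * cube (term j) x with hg
  refine ⟨fun x => 2 * g x - 1, ?_, ?_, ?_⟩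
  · intro x
    by_cases hx : ∃ j, InCube (term j) x
    · obtain ⟨j0, hj0⟩ := hx
      left
      have : g x = 1 := by
        simp only [hg]
        rw [Finset.sum_eq_single j0]
        · rw [cube_eq_one hj0, mul_one]
        · intro j _ hne
          have : ¬ InCube (term j) x := fun hj => hne (term_disj x j j0 hj hj0)
          rw [cube_eq_zero this, mul_zero]
        · intro h; exact absurd (Finset.mem_univ _) h
      show 2 * g x - 1 = 1
      rw [this]; norm_num
    · right
      have : g x = 0 := by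
        apply Finset.sum_eq_zero
        intro j _
        have : ¬ InCube (term j) x := fun hj => hx ⟨j, hj⟩
        rw [cube_eq_zero this, mul_zero]
      show 2 * g x - 1 = -1
      rw [this]; norm_num
  · intro S hS
    rw [fourier_affine g _ (fun x => rfl) S (by omega),
      fourier_conical_zero term (fun _ => 1) g (fun x => rfl) 4
        (fun j => le_of_eq (width_term j)) S hS, mul_zero]
  · have : ∀ i, fourier (fun x => 2 * g x - 1) {i} = 2 * fourier g {i} :=
      fun i => fourier_affine g _ (fun x => rfl) {i} (by simp)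
    simp only [this]
    rw [← Finset.mul_sum, conical_level_one term (fun _ => 1) g (fun x => rfl)]
    simp only [width_term, bias_term]
    simp
    norm_num

/-- **The extremal level-one sum in degree four.**
Every Boolean function of degree at most four, in any number of variables, has level-one
Fourier sum at most `7/4`, and a function of seven variables attains `7/4`. -/
theorem result :
    (∀ (n : ℕ) (f : (Fin n → Bool) → ℝ), (∀ x, f x = 1 ∨ f x = -1) →
      (∀ S : Finset (Fin n), 4 < S.card → fourier f S = 0) →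
      ∑ i, fourier f {i} ≤ 7 / 4) ∧
    (∃ f : (Fin 7 → Bool) → ℝ, (∀ x, f x = 1 ∨ f x = -1) ∧
      (∀ S : Finset (Fin 7), 4 < S.card → fourier f S = 0) ∧
      ∑ i, fourier f {i} = 7 / 4) :=
  ⟨fun n f hb hd => upper n f hb hd, example7⟩

end Vale.Agent.Results.P047.DegreeFour
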