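import Mathlib
import Vale.Agent.Results.P047.ConicalJunta
import Vale.Agent.Results.P047.DegreeFour
import Vale.Agent.Lib.P047.Riesz
import Vale.Agent.Lib.P047.Hyper
import Vale.Agent.Lib.P047.Biased
import Vale.Agent.Lib.P047.Numeric

/-! # P047: the level-one sum of a Boolean function of degree `d` is at most `0.953 d` -/

namespace Vale.Agent.Results.P047.ConstantFactor

open Finset BigOperators
open Vale.Agent.Results.P047
open Vale.Agent.Results.P047.ConicalJunta
open Vale.Agent.Results.P047.DegreeFour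
open Vale.Agent.Lib.P047
open Vale.Agent.Lib.P047.Biased

variable {n : ℕ}

/-- Riesz interpolation: the level-one sum is a signed combination of the biased means -/
lemma lev_eq_quad (f : (Fin n → Bool) → ℝ) (d : ℕ) (hd1 : 1 ≤ d)
    (hd : ∀ S : Finset (Fin n), d < S.card → ConicalJunta.fourier f S = 0) :
    lev f = ∑ m ∈ range (2 * d), Riesz.wt d m * gm f (Riesz.node d m) := by
  simp only [gm_poly, Finset.mul_sum]
  rw [Finset.sum_comm]
  have key : ∀ j ∈ range (n + 1),
      ∑ m ∈ range (2 * d), Riesz.wt d m * (Riesz.node d m ^ j * lvl f j)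
        = if j = 1 then lvl f 1 else 0 := by
    intro j _
    by_cases hj : j ≤ d
    · have hm := Riesz.moments d hd1 j hj
      have e : ∑ m ∈ range (2 * d), Riesz.wt d m * (Riesz.node d m ^ j * lvl f j)
          = (∑ m ∈ range (2 * d), Riesz.wt d m * Riesz.node d m ^ j) * lvl f j := by
        rw [Finset.sum_mul]
        apply Finset.sum_congr rfl
        intro m _
        ring
      rw [e, hm]
      split_ifs with h
      · rw [h, one_mul]
      · rw [zero_mul]
    · have h0 := lvl_zero_of_degree f d hd j (by omega)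
      have h1 : j ≠ 1 := by omega
      simp [h0, h1]
  rw [Finset.sum_congr rfl key, Finset.sum_ite_eq']
  split_ifs with h
  · exact (lvl_one f).symm
  · have h0 : n = 0 := by
      simp only [Finset.mem_range] at h
      omega
    subst h0
    simp [lev]

lemma lev_const (f : (Fin n → Bool) → ℝ) (c : ℝ) (hc : ∀ x, f x = c) : lev f = 0 := by
  simp only [lev]
  apply Finset.sum_eq_zero
  intro i _
  simp only [ConicalJunta.fourier, Finset.prod_singleton]
  rw [sum_eq_zero_of_flip i, zero_div]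
  intro x
  rw [hc, hc, flip_same, sgn_not]
  ring

/-- the explicit bound -/
lemma explicit (f : (Fin n → Bool) → ℝ) (hb : ∀ x, f x = 1 ∨ f x = -1) (d : ℕ) (hd1 : 1 ≤ d)
    (hd : ∀ S : Finset (Fin n), d < S.card → ConicalJunta.fourier f S = 0)
    (t0 lam : ℝ) (ht0 : t0 = Real.sin (Real.pi / (2 * (d:ℝ))))
    (hlam : lam = 1 / (4 * (d:ℝ) * (Real.sin (Real.pi / (4 * (d:ℝ)))) ^ 2))
    (h0 : 0 ≤ t0) (h1 : t0 < 1) (hl : 0 < lam) :
    lev f ≤ d - 4 * lam / (((1 + t0) / (1 - t0)) ^ d + 1) := by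
  have hR : 0 < ((1 + t0) / (1 - t0)) ^ d + 1 := by
    have : 0 < (1 + t0) / (1 - t0) := div_pos (by linarith) (by linarith)
    positivity
  obtain ⟨e1, e2, e3, e4⟩ := Numeric.ends d hd1
  have hn0 : Riesz.node d 0 = t0 := by rw [Riesz.node, Riesz.th, e3, ht0]
  have hn1 : Riesz.node d (2 * d - 1) = - t0 := by rw [Riesz.node, Riesz.th, e1, ht0]
  have hw0 : Riesz.wt d 0 = lam := by rw [Riesz.wt, Riesz.th, e4, hlam]; simp
  have hw1 : Riesz.wt d (2 * d - 1) = - lam := by
    rw [Riesz.wt, Riesz.th, e2, hlam, Odd.neg_one_pow ⟨d - 1, by omega⟩]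
    ring
  have ha := Riesz.abs_sum d hd1
  have hsub : ({0, 2 * d - 1} : Finset ℕ) ⊆ range (2 * d) := by
    intro m hm
    simp only [Finset.mem_insert, Finset.mem_singleton] at hm
    rw [Finset.mem_range]
    omega
  have hzero : 0 ≤ d - 4 * lam / (((1 + t0) / (1 - t0)) ^ d + 1) := by
    have hle := Finset.sum_le_sum_of_subset_of_nonneg hsub
      (fun m _ _ => abs_nonneg (Riesz.wt d m))
    rw [Finset.sum_pair (by omega), ha, hw0, hw1, abs_neg, abs_of_pos hl] at hle
    have hy : 1 ≤ (1 + t0) / (1 - t0) := by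
      rw [le_div_iff₀ (by linarith)]
      linarith
    have hy2 : 1 ≤ ((1 + t0) / (1 - t0)) ^ d := one_le_pow₀ hy
    have : 4 * lam / (((1 + t0) / (1 - t0)) ^ d + 1) ≤ 2 * lam := by
      rw [div_le_iff₀ hR]
      nlinarith
    linarith
  by_cases c1 : ∃ x, f x = 1
  swap
  · have : lev f = 0 := lev_const f (-1) (fun x => by
      rcases hb x with h | h
      · exact absurd ⟨x, h⟩ c1
      · exact h)
    rw [this]; exact hzero
  by_cases c2 : ∃ x, f x = -1
  swap
  · have : lev f = 0 := lev_const f 1 (fun x => by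
      rcases hb x with h | h
      · exact h
      · exact absurd ⟨x, h⟩ c2)
    rw [this]; exact hzero
  have hq := lev_eq_quad f d hd1 hd
  have hterm : ∀ m ∈ range (2 * d),
      0 ≤ |Riesz.wt d m| - Riesz.wt d m * gm f (Riesz.node d m) := by
    intro m _
    have hg := gm_abs_le f hb (Riesz.node d m) (Real.abs_sin_le_one _)
    have := abs_mul (Riesz.wt d m) (gm f (Riesz.node d m))
    have h2 : |Riesz.wt d m| * |gm f (Riesz.node d m)| ≤ |Riesz.wt d m| :=
      mul_le_of_le_one_right (abs_nonneg _) hg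
    have h3 := le_abs_self (Riesz.wt d m * gm f (Riesz.node d m))
    linarith
  have hle := Finset.sum_le_sum_of_subset_of_nonneg hsub (fun m hm _ => hterm m hm)
  rw [Finset.sum_pair (by omega), Finset.sum_sub_distrib, ha, ← hq, hn0, hn1, hw0, hw1,
    abs_neg, abs_of_pos hl] at hle
  have hh := Hyper.hyper (gm f) (gm' f) d (fun t _ => hasDeriv_gm f t)
    (fun t ht => gm_abs_lt f hb c1 c2 t (abs_lt.mpr ⟨ht.1, ht.2⟩))
    (fun t ht => key t (abs_lt.mpr ⟨ht.1, ht.2⟩).le f hb d hd) t0 h0 h1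
  have h5 : lam * (gm f t0 - gm f (-t0)) ≤ lam * (2 - 4 / (((1 + t0) / (1 - t0)) ^ d + 1)) :=
    mul_le_mul_of_nonneg_left hh hl.le
  have h6 : 4 * lam / (((1 + t0) / (1 - t0)) ^ d + 1)
      = lam * (4 / (((1 + t0) / (1 - t0)) ^ d + 1)) := by ring
  rw [h6]
  nlinarith

lemma sin_facts (d : ℕ) (hd : 2 ≤ d) :
    0 ≤ Real.sin (Real.pi / (2 * (d:ℝ))) ∧ Real.sin (Real.pi / (2 * (d:ℝ))) < 1 ∧
    0 < 1 / (4 * (d:ℝ) * (Real.sin (Real.pi / (4 * (d:ℝ)))) ^ 2) := by
  have hd' : (2:ℝ) ≤ d := by exact_mod_cast hd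
  have hpi := Real.pi_pos
  have a1 : 0 < Real.pi / (2 * (d:ℝ)) := by positivity
  have a2 : Real.pi / (2 * (d:ℝ)) < Real.pi / 2 := by
    apply div_lt_div_of_pos_left hpi (by norm_num) (by linarith)
  have b1 : 0 < Real.pi / (4 * (d:ℝ)) := by positivity
  have b2 : Real.pi / (4 * (d:ℝ)) < Real.pi := by
    rw [div_lt_iff₀ (by positivity)]
    nlinarith
  refine ⟨(Real.sin_pos_of_pos_of_lt_pi a1 (by linarith)).le, ?_, ?_⟩
  · have := Real.sin_lt_sin_of_lt_of_le_pi_div_two (by linarith) le_rfl a2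
    rwa [Real.sin_pi_div_two] at this
  · have := Real.sin_pos_of_pos_of_lt_pi b1 b2
    positivity

/-- **A constant-factor improvement of the degree bound.**
For every Boolean function `f` of degree at most `d`, `d ≥ 2`, in any number of variables:
(1) the level-one Fourier sum is at most `d - 4 λ / (R + 1)`, where
`λ = 1 / (4 d sin^2 (π / (4 d)))` and `R = ((1 + sin (π/(2d))) / (1 - sin (π/(2d))))^d`
(as `d → ∞` this bound is `(1 - (16/π^2)/(e^π + 1) + o(1)) d = (0.9329 + o(1)) d`);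
(2) the level-one Fourier sum is at most `0.953 d`. -/
theorem result :
    (∀ (n d : ℕ), 2 ≤ d → ∀ f : (Fin n → Bool) → ℝ, (∀ x, f x = 1 ∨ f x = -1) →
      (∀ S : Finset (Fin n), d < S.card → fourier f S = 0) →
      ∑ i, fourier f {i} ≤ d - 4 * (1 / (4 * (d:ℝ) * (Real.sin (Real.pi / (4 * (d:ℝ)))) ^ 2)) /
        (((1 + Real.sin (Real.pi / (2 * (d:ℝ)))) / (1 - Real.sin (Real.pi / (2 * (d:ℝ))))) ^ d + 1)) ∧
    (∀ (n d : ℕ), 2 ≤ d → ∀ f : (Fin n → Bool) → ℝ, (∀ x, f x = 1 ∨ f x = -1) →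
      (∀ S : Finset (Fin n), d < S.card → fourier f S = 0) →
      ∑ i, fourier f {i} ≤ (953 / 1000 : ℝ) * d) := by
  have part1 : ∀ (n d : ℕ), 2 ≤ d → ∀ f : (Fin n → Bool) → ℝ, (∀ x, f x = 1 ∨ f x = -1) →
      (∀ S : Finset (Fin n), d < S.card → ConicalJunta.fourier f S = 0) →
      ∑ i, ConicalJunta.fourier f {i}
        ≤ d - 4 * (1 / (4 * (d:ℝ) * (Real.sin (Real.pi / (4 * (d:ℝ)))) ^ 2)) /
        (((1 + Real.sin (Real.pi / (2 * (d:ℝ)))) / (1 - Real.sin (Real.pi / (2 * (d:ℝ))))) ^ d + 1) := by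
    intro n d hd2 f hb hd
    obtain ⟨s1, s2, s3⟩ := sin_facts d hd2
    exact explicit f hb d (by omega) hd _ _ rfl rfl s1 s2 s3
  refine ⟨part1, ?_⟩
  intro n d hd2 f hb hd
  by_cases h5 : 5 ≤ d
  · have h := part1 n d hd2 f hb hd
    obtain ⟨_, _, _, hnum⟩ := Numeric.numeric d h5
    linarith
  · have h4 := DegreeFour.upper n f hb (fun S hS => hd S (by omega))
    have hd' : (2:ℝ) ≤ d := by exact_mod_cast hd2
    have : ∑ i, ConicalJunta.fourier f {i} = lev f := rfl
    rw [this]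
    linarith

end Vale.Agent.Results.P047.ConstantFactor
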