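import Mathlib
import Vale.Agent.Results.P047.ConicalJunta
import Vale.Agent.Results.P047.DegreeFour
import Vale.Agent.Results.P047.ConstantFactor
import Vale.Agent.Lib.P047.Biased
import Vale.Agent.Lib.P047.SelfDual
import Vale.Agent.Lib.P047.Examples
import Vale.Agent.Lib.P047.PowerFree

/-! # P047: what we can prove about the level-one sum of Boolean functions of degree `d` -/

namespace Vale.Agent.Results.P047.Synthesis

open Finset BigOperators
open Vale.Agent.Results.P047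
open Vale.Agent.Results.P047.ConicalJunta
open Vale.Agent.Results.P047.DegreeFour
open Vale.Agent.Lib.P047

/-- a balanced Boolean function of degree five on ten variables with level-one sum `17/8` -/
theorem ex10 : ∃ f : (Fin 10 → Bool) → ℝ, (∀ x, f x = 1 ∨ f x = -1) ∧
    ConicalJunta.fourier f ∅ = 0 ∧
    (∀ S : Finset (Fin 10), 5 < S.card → ConicalJunta.fourier f S = 0) ∧ lev f = 17 / 8 := by
  obtain ⟨f, h1, h2, h3, h4⟩ := Examples.ex9
  obtain ⟨f', g1, g2, g3, g4⟩ := SelfDual.dual f h1 5 h2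
  obtain ⟨F, F1, F2, _, F4, F5⟩ := SelfDual.selfdual f' g1 5 g3
  refine ⟨F, F1, F2, F4 (by decide), ?_⟩
  rw [F5, g2, g4, h3, h4]
  norm_num

/-- a balanced Boolean function of degree seven on twelve variables with level-one sum `39/16` -/
theorem ex12 : ∃ f : (Fin 12 → Bool) → ℝ, (∀ x, f x = 1 ∨ f x = -1) ∧
    ConicalJunta.fourier f ∅ = 0 ∧
    (∀ S : Finset (Fin 12), 7 < S.card → ConicalJunta.fourier f S = 0) ∧ lev f = 39 / 16 := by
  obtain ⟨f, h1, h2, h3, h4⟩ := Examples.ex11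
  obtain ⟨F, F1, F2, _, F4, F5⟩ := SelfDual.selfdual f h1 7 h2
  refine ⟨F, F1, F2, F4 (by decide), ?_⟩
  rw [F5, h3, h4]
  norm_num

lemma gm_eq {n : ℕ} (f : (Fin n → Bool) → ℝ) (t : ℝ) :
    Biased.gm f t = ∑ S : Finset (Fin n), ConicalJunta.fourier f S * t ^ S.card := by
  rw [Biased.gm_poly, ← Finset.powerset_univ, Finset.sum_powerset]
  simp only [Finset.card_univ, Fintype.card_fin]
  apply Finset.sum_congr rfl
  intro j _
  rw [lvl, Finset.mul_sum]
  apply Finset.sum_congr rfl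
  intro S hS
  rw [(Finset.mem_powersetCard.mp hS).2]
  ring

/-- the differential inequality for the biased mean -/
theorem diff_ineq (n d : ℕ) (f : (Fin n → Bool) → ℝ) (hb : ∀ x, f x = 1 ∨ f x = -1)
    (hd : ∀ S : Finset (Fin n), d < S.card → ConicalJunta.fourier f S = 0) (t : ℝ) (ht : |t| ≤ 1) :
    (1 - t ^ 2) * deriv (fun u : ℝ => ∑ S : Finset (Fin n), ConicalJunta.fourier f S * u ^ S.card) t
      ≤ d * (1 - (∑ S : Finset (Fin n), ConicalJunta.fourier f S * t ^ S.card) ^ 2) := by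
  have e : (fun u : ℝ => ∑ S : Finset (Fin n), ConicalJunta.fourier f S * u ^ S.card)
      = Biased.gm f := by
    funext u; rw [gm_eq]
  rw [e, (Biased.hasDeriv_gm f t).deriv, ← gm_eq]
  exact Biased.key t ht f hb d hd

/-- **Summary theorem.** `fhat` is `fourier`; a Boolean `f` has degree at most `d` if
`fourier f S = 0` whenever `S` has more than `d` elements.
(1) the level-one sum is at most `0.953 d` for `d ≥ 2`;
(2) in degree four the extremal value is exactly `7/4`;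
(3) balanced examples of degree five and seven with level-one sums `17/8` and `39/16`;
(4) constants can be removed: a bound `C d^θ` valid for all Boolean functions implies the bound
`d^θ` for balanced functions, `(d+1)^θ` for the sum plus the modulus of the mean in general,
and `d^θ` for that quantity when `d` is odd;
(5) the mean `g(t)` under the measure of bias `t` satisfies `(1-t^2) g' ≤ d (1-g^2)`. -/
theorem result :
    (∀ (n d : ℕ), 2 ≤ d → ∀ f : (Fin n → Bool) → ℝ, (∀ x, f x = 1 ∨ f x = -1) →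
      (∀ S : Finset (Fin n), d < S.card → fourier f S = 0) →
      ∑ i, fourier f {i} ≤ (953 / 1000 : ℝ) * d) ∧
    ((∀ (n : ℕ) (f : (Fin n → Bool) → ℝ), (∀ x, f x = 1 ∨ f x = -1) →
      (∀ S : Finset (Fin n), 4 < S.card → fourier f S = 0) →
      ∑ i, fourier f {i} ≤ 7 / 4) ∧
    (∃ f : (Fin 7 → Bool) → ℝ, (∀ x, f x = 1 ∨ f x = -1) ∧
      (∀ S : Finset (Fin 7), 4 < S.card → fourier f S = 0) ∧
      ∑ i, fourier f {i} = 7 / 4)) ∧
    ((∃ f : (Fin 10 → Bool) → ℝ, (∀ x, f x = 1 ∨ f x = -1) ∧ fourier f ∅ = 0 ∧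
      (∀ S : Finset (Fin 10), 5 < S.card → fourier f S = 0) ∧ ∑ i, fourier f {i} = 17 / 8) ∧
    (∃ f : (Fin 12 → Bool) → ℝ, (∀ x, f x = 1 ∨ f x = -1) ∧ fourier f ∅ = 0 ∧
      (∀ S : Finset (Fin 12), 7 < S.card → fourier f S = 0) ∧ ∑ i, fourier f {i} = 39 / 16)) ∧
    (∀ C θ : ℝ,
      (∀ (n d : ℕ) (f : (Fin n → Bool) → ℝ), 1 ≤ d → (∀ x, f x = 1 ∨ f x = -1) →
        (∀ S : Finset (Fin n), d < S.card → fourier f S = 0) →
        ∑ i, fourier f {i} ≤ C * (d:ℝ) ^ θ) →
      (∀ (n d : ℕ) (f : (Fin n → Bool) → ℝ), 1 ≤ d → (∀ x, f x = 1 ∨ f x = -1) →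
        (∀ S : Finset (Fin n), d < S.card → fourier f S = 0) →
        fourier f ∅ = 0 → ∑ i, fourier f {i} ≤ (d:ℝ) ^ θ) ∧
      (∀ (n d : ℕ) (f : (Fin n → Bool) → ℝ), (∀ x, f x = 1 ∨ f x = -1) →
        (∀ S : Finset (Fin n), d < S.card → fourier f S = 0) →
        ∑ i, fourier f {i} + |fourier f ∅| ≤ ((d:ℝ) + 1) ^ θ) ∧
      (∀ (n d : ℕ) (f : (Fin n → Bool) → ℝ), Odd d → (∀ x, f x = 1 ∨ f x = -1) →
        (∀ S : Finset (Fin n), d < S.card → fourier f S = 0) →
        ∑ i, fourier f {i} + |fourier f ∅| ≤ (d:ℝ) ^ θ)) ∧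
    (∀ (n d : ℕ) (f : (Fin n → Bool) → ℝ), (∀ x, f x = 1 ∨ f x = -1) →
      (∀ S : Finset (Fin n), d < S.card → fourier f S = 0) → ∀ t : ℝ, |t| ≤ 1 →
      (1 - t ^ 2) * deriv (fun u : ℝ => ∑ S : Finset (Fin n), fourier f S * u ^ S.card) t
        ≤ d * (1 - (∑ S : Finset (Fin n), fourier f S * t ^ S.card) ^ 2)) :=
  ⟨ConstantFactor.result.2, DegreeFour.result, ⟨ex10, ex12⟩,
    fun C θ hweak => PowerFree.constant_free C θ hweak, diff_ineq⟩

end Vale.Agent.Results.P047.Synthesis
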