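import Mathlib
import Vale.Agent.Results.P047.ConicalJunta
import Vale.Agent.Results.P047.DegreeFour
import Vale.Agent.Results.P047.ConstantFactor
import Vale.Agent.Results.P047.Synthesis
import Vale.Agent.Lib.P047.SelfDual
import Vale.Agent.Lib.P047.PowerFree
import Vale.Agent.Lib.P047.DegreeFive

/-! # P047: all our results on the level-one sum of Boolean functions of degree `d` -/

namespace Vale.Agent.Results.P047.Overview

open Finset BigOperators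
open Vale.Agent.Results.P047
open Vale.Agent.Results.P047.ConicalJunta
open Vale.Agent.Results.P047.DegreeFour
open Vale.Agent.Lib.P047

/-- a bound `d^θ` for balanced functions gives the bound `2^θ d^θ` for all functions -/
theorem of_balanced (θ : ℝ) (hθ : 0 ≤ θ)
    (hbal : ∀ (n d : ℕ) (f : (Fin n → Bool) → ℝ), 1 ≤ d → (∀ x, f x = 1 ∨ f x = -1) →
      (∀ S : Finset (Fin n), d < S.card → ConicalJunta.fourier f S = 0) →
      ConicalJunta.fourier f ∅ = 0 → lev f ≤ (d:ℝ) ^ θ)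
    (n d : ℕ) (f : (Fin n → Bool) → ℝ) (hd1 : 1 ≤ d) (hb : ∀ x, f x = 1 ∨ f x = -1)
    (hd : ∀ S : Finset (Fin n), d < S.card → ConicalJunta.fourier f S = 0) :
    lev f ≤ (2:ℝ) ^ θ * (d:ℝ) ^ θ := by
  obtain ⟨F, F1, F2, F3, _, F5⟩ := SelfDual.selfdual f hb d hd
  obtain ⟨f', g1, g2, g3, g4⟩ := SelfDual.dual f hb d hd
  obtain ⟨G, G1, G2, G3, _, G5⟩ := SelfDual.selfdual f' g1 d g3
  have a1 := hbal (n + 1) (d + 1) F (by omega) F1 F3 F2
  have a2 := hbal (n + 1) (d + 1) G (by omega) G1 G3 G2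
  rw [F5] at a1
  rw [G5, g2, g4] at a2
  push_cast at a1 a2
  have hd1' : (1:ℝ) ≤ d := by exact_mod_cast hd1
  have h3 : ((d:ℝ) + 1) ^ θ ≤ (2 * (d:ℝ)) ^ θ :=
    Real.rpow_le_rpow (by linarith) (by linarith) hθ
  rw [Real.mul_rpow (by norm_num) (by linarith)] at h3
  linarith

/-- **Overview theorem.** `fourier f S` is the Fourier coefficient of `f` at `S`; a Boolean `f`
has degree at most `d` if `fourier f S = 0` whenever `S` has more than `d` elements. -/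
theorem result :
    (∀ (n d : ℕ), 2 ≤ d → ∀ f : (Fin n → Bool) → ℝ, (∀ x, f x = 1 ∨ f x = -1) →
      (∀ S : Finset (Fin n), d < S.card → fourier f S = 0) →
      ∑ i, fourier f {i} ≤ (953 / 1000 : ℝ) * d) ∧
    ((∀ (n : ℕ) (f : (Fin n → Bool) → ℝ), (∀ x, f x = 1 ∨ f x = -1) →
      (∀ S : Finset (Fin n), 4 < S.card → fourier f S = 0) →
      ∑ i, fourier f {i} ≤ 7 / 4) ∧
    (∃ f : (Fin 7 → Bool) → ℝ, (∀ x, f x = 1 ∨ f x = -1) ∧
      (∀ S : Finset (Fin 7), 4 < S.card → fourier f S = 0) ∧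
      ∑ i, fourier f {i} = 7 / 4)) ∧
    ((∀ (n : ℕ) (f : (Fin n → Bool) → ℝ), (∀ x, f x = 1 ∨ f x = -1) →
      (∀ S : Finset (Fin n), 5 < S.card → fourier f S = 0) →
      ∑ i, fourier f {i} + |fourier f ∅| ≤ 23 / 8) ∧
    (∀ (n : ℕ) (f : (Fin n → Bool) → ℝ), n ≤ 11 → (∀ x, f x = 1 ∨ f x = -1) →
      (∀ S : Finset (Fin n), 5 < S.card → fourier f S = 0) →
      ∑ i, fourier f {i} ≤ 17 / 8) ∧
    ((∀ (n : ℕ) (f : (Fin n → Bool) → ℝ), n ≤ 18 → (∀ x, f x = 1 ∨ f x = -1) →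
      (∀ S : Finset (Fin n), 5 < S.card → fourier f S = 0) →
      ∑ i, fourier f {i} ≤ 17 / 8) →
      ∀ (n : ℕ) (f : (Fin n → Bool) → ℝ), (∀ x, f x = 1 ∨ f x = -1) →
      (∀ S : Finset (Fin n), 5 < S.card → fourier f S = 0) →
      ∑ i, fourier f {i} + |fourier f ∅| ≤ 17 / 8)) ∧
    ((∃ f : (Fin 10 → Bool) → ℝ, (∀ x, f x = 1 ∨ f x = -1) ∧ fourier f ∅ = 0 ∧
      (∀ S : Finset (Fin 10), 5 < S.card → fourier f S = 0) ∧ ∑ i, fourier f {i} = 17 / 8) ∧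
    (∃ f : (Fin 12 → Bool) → ℝ, (∀ x, f x = 1 ∨ f x = -1) ∧ fourier f ∅ = 0 ∧
      (∀ S : Finset (Fin 12), 7 < S.card → fourier f S = 0) ∧ ∑ i, fourier f {i} = 39 / 16)) ∧
    (∀ θ : ℝ, 0 ≤ θ →
      ((∃ C : ℝ, ∀ (n d : ℕ) (f : (Fin n → Bool) → ℝ), 1 ≤ d → (∀ x, f x = 1 ∨ f x = -1) →
        (∀ S : Finset (Fin n), d < S.card → fourier f S = 0) →
        ∑ i, fourier f {i} ≤ C * (d:ℝ) ^ θ) ↔
      (∀ (n d : ℕ) (f : (Fin n → Bool) → ℝ), 1 ≤ d → (∀ x, f x = 1 ∨ f x = -1) →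
        (∀ S : Finset (Fin n), d < S.card → fourier f S = 0) →
        fourier f ∅ = 0 → ∑ i, fourier f {i} ≤ (d:ℝ) ^ θ))) ∧
    (∀ C θ : ℝ,
      (∀ (n d : ℕ) (f : (Fin n → Bool) → ℝ), 1 ≤ d → (∀ x, f x = 1 ∨ f x = -1) →
        (∀ S : Finset (Fin n), d < S.card → fourier f S = 0) →
        ∑ i, fourier f {i} ≤ C * (d:ℝ) ^ θ) →
      (∀ (n d : ℕ) (f : (Fin n → Bool) → ℝ), (∀ x, f x = 1 ∨ f x = -1) →
        (∀ S : Finset (Fin n), d < S.card → fourier f S = 0) →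
        ∑ i, fourier f {i} + |fourier f ∅| ≤ ((d:ℝ) + 1) ^ θ) ∧
      (∀ (n d : ℕ) (f : (Fin n → Bool) → ℝ), Odd d → (∀ x, f x = 1 ∨ f x = -1) →
        (∀ S : Finset (Fin n), d < S.card → fourier f S = 0) →
        ∑ i, fourier f {i} + |fourier f ∅| ≤ (d:ℝ) ^ θ)) ∧
    (∀ (n d : ℕ) (f : (Fin n → Bool) → ℝ), (∀ x, f x = 1 ∨ f x = -1) →
      (∀ S : Finset (Fin n), d < S.card → fourier f S = 0) → ∀ t : ℝ, |t| ≤ 1 →
      (1 - t ^ 2) * deriv (fun u : ℝ => ∑ S : Finset (Fin n), fourier f S * u ^ S.card) t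
        ≤ d * (1 - (∑ S : Finset (Fin n), fourier f S * t ^ S.card) ^ 2)) ∧
    (∀ (n d : ℕ) (ι : Type) [Fintype ι] (ρ : ι → Fin n → Option Bool)
      (f : (Fin n → Bool) → ℝ),
      (∀ x, f x = 1 ∨ f x = -1) → (∀ j, width (ρ j) ≤ d) →
      (∀ x, ∃! j, InCube (ρ j) x) →
      (∀ j x y, InCube (ρ j) x → InCube (ρ j) y → f x = f y) →
      ∑ i, fourier f {i} ≤ Real.sqrt d) ∧
    (∀ (n d : ℕ) (ι : Type) [Fintype ι] (ρ : ι → Fin n → Option Bool)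
      (f : (Fin n → Bool) → ℝ),
      (∀ x, f x = 1 ∨ f x = -1) → (∀ j, width (ρ j) ≤ d) →
      (∀ x j k, InCube (ρ j) x → InCube (ρ k) x → j = k) →
      (∀ x, f x = 1 ↔ ∃ j, InCube (ρ j) x) →
      ∑ i, fourier f {i} ≤ 2 * Real.exp (-(1/2)) * Real.sqrt d) :=
  ⟨ConstantFactor.result.2, DegreeFour.result,
    ⟨fun n f hb hd => DegreeFive.upper5_abs n f hb hd,
      fun _ f hn hb hd => DegreeFive.small5 hn f hb hd,
      fun H n f hb hd => DegreeFive.reduce5 (fun k hk F hbF hdF => H k F hk hbF hdF) n f hb hd⟩,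
    Synthesis.result.2.2.1,
    fun θ hθ => ⟨fun ⟨C, hC⟩ => (PowerFree.constant_free C θ hC).1,
      fun hbal => ⟨(2:ℝ) ^ θ, fun n d f hd1 hb hd => of_balanced θ hθ hbal n d f hd1 hb hd⟩⟩,
    fun C θ hweak => (PowerFree.constant_free C θ hweak).2,
    Synthesis.result.2.2.2.2, ConicalJunta.result.2.2.1, ConicalJunta.result.2.2.2⟩

end Vale.Agent.Results.P047.Overview
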